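import Vale.Agent.P262.H691.Defs

/-!
# The two-parameter constants and matrices of vectors (P262)
-/

open scoped ENNReal BigOperators

namespace Vale.Agent.P262.H865

open Vale.Agent.P262.H691

/-- `S(E, N)`: the supremum of `bestOrder v` over all zero-sum families `v` of `N` vectors in the
closed unit ball of `E`. -/
noncomputable def steinitzN (E : Type) [NormedAddCommGroup E] (N : ℕ) : ℝ≥0∞ :=
  ⨆ (v : Fin N → E) (_ : ∀ i, ‖v i‖ ≤ 1) (_ : ∑ i, v i = 0), bestOrder v

/-- `σ(E, N)`: the supremum over all sequences of `N` vectors in the closed unit ball of `E` of the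
minimum over all sign sequences of the maximal norm of a signed partial sum. -/
noncomputable def signedN (E : Type) [NormedAddCommGroup E] [NormedSpace ℝ E] (N : ℕ) : ℝ≥0∞ :=
  ⨆ (v : Fin N → E) (_ : ∀ i, ‖v i‖ ≤ 1),
    ⨅ ε : Fin N → ℤˣ, ⨆ k : Fin (N + 1), ‖prefixSum (fun i => ((ε i : ℤ) : ℝ) • v i) k.val‖ₑ

/-- For a matrix `A` of vectors with `m` rows and `n` columns: the minimum, over all ways of
permuting the entries of each row, of the maximal norm of the sum of the first `k` columns
(`0 ≤ k ≤ n`). -/
noncomputable def bestRows {E : Type} [NormedAddCommGroup E] {m n : ℕ} (A : Fin m → Fin n → E) :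
    ℝ≥0∞ :=
  ⨅ π : Fin m → Equiv.Perm (Fin n),
    ⨆ k : Fin (n + 1), ‖∑ j, prefixSum (fun i => A j (π j i)) k.val‖ₑ

/-- The Steinitz constant of `E` for matrices with `m` rows and `n` columns: the supremum of
`bestRows A` over all matrices with entries in the closed unit ball and total sum zero. -/
noncomputable def matrixSteinitz (E : Type) [NormedAddCommGroup E] (m n : ℕ) : ℝ≥0∞ :=
  ⨆ (A : Fin m → Fin n → E) (_ : ∀ j i, ‖A j i‖ ≤ 1) (_ : ∑ j, ∑ i, A j i = 0), bestRows A

end Vale.Agent.P262.H865
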