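import Vale.Agent.P262.H865.Lp2

/-!
# Lower bounds for matrices in `ℓ_p^d`, `1 ≤ p ≤ 2` (P262)
-/

open scoped ENNReal BigOperators

namespace Vale.Agent.P262.H865

open Vale.Agent.P262.H691

/-- The elementary inequality behind the lower bound. -/
lemma F_ge {a b : ℝ} (ha0 : 0 ≤ a) (ha1 : a ≤ 1) (h1 : 1 / 2 ≤ a + b) (h2 : a + b ≤ 3 / 2) :
    1 / 9 ≤ a - 2 * a * b + b ^ 2 := by
  have e : a - 2 * a * b + b ^ 2 = (b - a) ^ 2 + a * (1 - a) := by ring
  rw [e]
  rcases le_total a (1 / 4) with h | h
  · have h3 : 0 ≤ 1 / 2 - 2 * a := by linarith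
    have h4 : (1 / 2 - 2 * a) ^ 2 ≤ (b - a) ^ 2 := pow_le_pow_left₀ h3 (by linarith) 2
    nlinarith [sq_nonneg (a - 1 / 6)]
  · rcases le_total a (3 / 4) with h' | h'
    · nlinarith [sq_nonneg (b - a)]
    · have h3 : 0 ≤ 2 * a - 3 / 2 := by linarith
      have h4 : (2 * a - 3 / 2) ^ 2 ≤ (a - b) ^ 2 := pow_le_pow_left₀ h3 (by linarith) 2
      have h5 : (a - b) ^ 2 = (b - a) ^ 2 := by ring
      nlinarith [sq_nonneg (a - 5 / 6)]

variable {r : ℕ}

/-- The entry number `t`: the basis vectors `e_0, …, e_{r-1}`, then `r` copies of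
`-(1/r) ∑ e_i`, then zeros. -/
noncomputable def ent (p : ℝ≥0∞) (r t : ℕ) : PiLp p (fun _ : Fin r => ℝ) :=
  WithLp.toLp p (fun c : Fin r => (if t = c.val then 1 else 0) -
    (if r ≤ t ∧ t < r + r then 1 / (r : ℝ) else 0))

lemma ent_apply (p : ℝ≥0∞) (r t : ℕ) (c : Fin r) : ent p r t c = (if t = c.val then 1 else 0) -
    (if r ≤ t ∧ t < r + r then 1 / (r : ℝ) else 0) := rfl

lemma norm_ent_le {p : ℝ≥0∞} [hp1 : Fact (1 ≤ p)] (hp : p ≤ 2) (t : ℕ) :
    ‖ent p r t‖ ≤ 1 := by
  have ht := ne_top_of_le_two hp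
  have h1 := toReal_ge_one hp1.out ht
  have h0 : 0 < p.toReal := by linarith
  rw [norm_lp p ht]
  refine Real.rpow_le_one (Finset.sum_nonneg fun i _ => Real.rpow_nonneg (abs_nonneg _) _) ?_
    (by positivity)
  by_cases h2 : r ≤ t ∧ t < r + r
  · have hr : 0 < r := by omega
    have hr0 : (0 : ℝ) < r := by exact_mod_cast hr
    have h3 : ∀ c : Fin r, |ent p r t c| ^ p.toReal ≤ 1 / r := by
      intro c
      have hc : t ≠ c.val := by have := c.2; omega
      rw [ent_apply, if_neg hc, if_pos h2, zero_sub, abs_neg, abs_of_pos (by positivity)]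
      have h4 : 1 / (r : ℝ) ≤ 1 := by
        rw [div_le_one hr0]; exact_mod_cast hr
      calc (1 / (r : ℝ)) ^ p.toReal ≤ (1 / (r : ℝ)) ^ (1 : ℝ) :=
            Real.rpow_le_rpow_of_exponent_ge (by positivity) h4 h1
        _ = _ := Real.rpow_one _
    refine (Finset.sum_le_sum fun c _ => h3 c).trans ?_
    rw [Finset.sum_const, Finset.card_univ, Fintype.card_fin, nsmul_eq_mul,
      mul_one_div_cancel hr0.ne']
  · by_cases h3 : t < r
    · rw [Finset.sum_eq_single (⟨t, h3⟩ : Fin r)]
      · rw [ent_apply]; simp [h2]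
      · intro c _ hc
        have : t ≠ c.val := fun h => hc (Fin.ext h.symm)
        rw [ent_apply, if_neg this, if_neg h2]
        simp [Real.zero_rpow h0.ne']
      · intro h; exact absurd (Finset.mem_univ _) h
    · refine le_trans (le_of_eq (Finset.sum_eq_zero fun c _ => ?_)) zero_le_one
      have : t ≠ c.val := by have := c.2; omega
      rw [ent_apply, if_neg this, if_neg h2]
      simp [Real.zero_rpow h0.ne']

/-- Sums over `Fin r` as sums over `Fin N`. -/
lemma sum_castLE {N : ℕ} (h : r ≤ N) (f : Fin N → ℝ) :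
    ∑ c : Fin r, f (Fin.castLE h c) = ∑ t : Fin N, if t.val < r then f t else 0 := by
  rw [← Finset.sum_filter]
  refine Finset.sum_bij (fun c _ => Fin.castLE h c) ?_ ?_ ?_ ?_
  · intro c _
    simp
  · intro a _ b _ hab
    exact Fin.ext (by simpa using congrArg Fin.val hab)
  · intro t ht
    have ht' : t.val < r := by simpa using ht
    exact ⟨⟨t.val, ht'⟩, Finset.mem_univ _, Fin.ext rfl⟩
  · intro c _; rfl

/-- The lower bound in `ℓ_p^r`, when the matrix has at least `2 r` entries. -/
theorem matrix_lower_aux {p : ℝ≥0∞} [hp1 : Fact (1 ≤ p)] (hp : p ≤ 2) (hr : 1 ≤ r) {m n : ℕ}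
    (hn : 2 ≤ n) (hmn : r + r ≤ m * n) :
    ENNReal.ofReal (1 / 9 * (r : ℝ) ^ (1 / p.toReal)) ≤
      matrixSteinitz (PiLp p (fun _ : Fin r => ℝ)) m n := by
  have ht := ne_top_of_le_two hp
  have h1 := toReal_ge_one hp1.out ht
  have h0 : 0 < p.toReal := by linarith
  have hr0 : (0 : ℝ) < r := by exact_mod_cast hr
  have hrN : r ≤ m * n := by omega
  let A : Fin m → Fin n → PiLp p (fun _ : Fin r => ℝ) :=
    fun j i => ent p r (finProdFinEquiv (j, i)).val
  -- the total sum
  have hsum : ∀ x : PiLp p (fun _ : Fin r => ℝ), (∀ c, x c = 0) → x = 0 := by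
    intro x hx
    ext c
    simpa using hx c
  -- the coordinates of a sum over cells
  have hcoord : ∀ (g : Fin (m * n) → ℝ) (c : Fin r),
      (∑ t : Fin (m * n), g t • ent p r t.val) c = g (Fin.castLE hrN c) -
        (1 / r) * ∑ t : Fin (m * n), if r ≤ t.val ∧ t.val < r + r then g t else 0 := by
    intro g c
    rw [WithLp.ofLp_sum, Finset.sum_apply]
    simp only [WithLp.ofLp_smul, Pi.smul_apply, smul_eq_mul, ent_apply, mul_sub]
    rw [Finset.sum_sub_distrib]
    congr 1
    · rw [Finset.sum_eq_single (Fin.castLE hrN c)]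
      · simp
      · intro t _ htc
        have : t.val ≠ c.val := fun h => htc (Fin.ext h)
        simp [this]
      · intro h; exact absurd (Finset.mem_univ _) h
    · rw [Finset.mul_sum]
      refine Finset.sum_congr rfl fun t _ => ?_
      split_ifs <;> ring
  have hcard : ∀ q : ℕ, q ≤ m * n → (Finset.univ.filter fun t : Fin (m * n) => t.val < q).card = q := by
    intro q hq
    have h3 : (Finset.univ.filter fun i : Fin (m * n) => i.val < q).card
        = (Finset.range q).card := by
      refine Finset.card_bij (fun (i : Fin (m * n)) _ => i.val) ?_ ?_ ?_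
      · intro i hi
        simpa using hi
      · intro i _ j _ hij
        exact Fin.ext hij
      · intro j hj
        have hj' : j < q := by simpa using hj
        exact ⟨⟨j, by omega⟩, by simpa using hj', rfl⟩
    rw [h3, Finset.card_range]
  have h0sum : ∑ j, ∑ i, A j i = 0 := by
    apply hsum
    intro c
    have e1 : ∑ j, ∑ i, A j i = ∑ t : Fin (m * n), (1 : ℝ) • ent p r t.val := by
      rw [← Finset.sum_product', ← finProdFinEquiv.sum_comp]
      refine Finset.sum_congr rfl fun q _ => ?_
      rw [one_smul]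
    rw [e1, hcoord (fun _ => 1) c, ← Finset.sum_filter, Finset.sum_const, nsmul_eq_mul, mul_one]
    have e2 : (Finset.univ.filter fun t : Fin (m * n) => r ≤ t.val ∧ t.val < r + r).card = r := by
      have e3 := hcard (r + r) hmn
      have e4 := hcard r hrN
      have e5 : (Finset.univ.filter fun t : Fin (m * n) => t.val < r + r)
          = (Finset.univ.filter fun t : Fin (m * n) => t.val < r) ∪
            (Finset.univ.filter fun t : Fin (m * n) => r ≤ t.val ∧ t.val < r + r) := by
        ext t
        simp only [Finset.mem_filter, Finset.mem_univ, true_and, Finset.mem_union]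
        omega
      rw [e5, Finset.card_union_of_disjoint, e4] at e3
      · omega
      · rw [Finset.disjoint_left]
        intro t h2 h3
        simp only [Finset.mem_filter, Finset.mem_univ, true_and] at h2 h3
        omega
    rw [e2, one_div, inv_mul_cancel₀ hr0.ne', sub_self]
  unfold matrixSteinitz
  refine le_iSup_of_le A (le_iSup_of_le (fun j i => norm_ent_le hp _) (le_iSup_of_le h0sum ?_))
  unfold bestRows
  refine le_iInf fun π => ?_
  let Φ : Fin m × Fin n ≃ Fin (m * n) := (Equiv.prodCongrRight π).trans finProdFinEquiv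
  let col : Fin (m * n) → ℕ := fun t => (Φ.symm t).2.val
  -- prefix sums as sums over the entries
  have hpre : ∀ k : ℕ, ∑ j, prefixSum (fun i => A j (π j i)) k
      = ∑ t : Fin (m * n), (if col t < k then (1 : ℝ) else 0) • ent p r t.val := by
    intro k
    rw [← Φ.sum_comp, Fintype.sum_prod_type]
    refine Finset.sum_congr rfl fun j _ => ?_
    unfold prefixSum
    rw [Finset.sum_filter]
    refine Finset.sum_congr rfl fun i _ => ?_
    have e1 : col (Φ (j, i)) = i.val := by simp only [col, Equiv.symm_apply_apply]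
    rw [e1]
    have e2 : (Φ (j, i)) = finProdFinEquiv (j, π j i) := rfl
    rw [e2]
    by_cases h : i.val < k <;> simp [h, A]
  -- the number of the first `2 r` entries in the first `k` columns
  let u : ℕ → ℕ := fun k =>
    (Finset.univ.filter fun t : Fin (m * n) => t.val < r + r ∧ col t < k).card
  have hu0 : u 0 = 0 := by simp [u]
  have hun : u n = r + r := by
    have e1 : (Finset.univ.filter fun t : Fin (m * n) => t.val < r + r ∧ col t < n)
        = Finset.univ.filter fun t : Fin (m * n) => t.val < r + r := by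
      ext t
      have h2 : col t < n := (Φ.symm t).2.2
      simp [h2]
    simp only [u]
    rw [e1, hcard _ hmn]
  have hstep : ∀ k, u (k + 1) ≤ u k + r := by
    intro k
    have e1 : (Finset.univ.filter fun t : Fin (m * n) => t.val < r + r ∧ col t < k + 1)
        = (Finset.univ.filter fun t : Fin (m * n) => t.val < r + r ∧ col t < k) ∪
          (Finset.univ.filter fun t : Fin (m * n) => t.val < r + r ∧ col t = k) := by
      ext t
      simp only [Finset.mem_filter, Finset.mem_univ, true_and, Finset.mem_union]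
      omega
    have e2 : (Finset.univ.filter fun t : Fin (m * n) => t.val < r + r ∧ col t = k).card ≤ r := by
      have e3 : (Finset.univ.filter fun t : Fin (m * n) => t.val < r + r ∧ col t = k).card
          ≤ (Finset.range r).card := by
        refine Finset.card_le_card_of_injOn (fun t => (Φ.symm t).1.val) ?_ ?_
        · intro t h2
          have h3 : t.val < r + r ∧ col t = k := by simpa using h2
          have e4 : Φ (Φ.symm t) = t := Φ.apply_symm_apply t
          have e5 : t.val = (π (Φ.symm t).1 (Φ.symm t).2).val + n * (Φ.symm t).1.val := by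
            conv_lhs => rw [← e4]
            rfl
          have e6 : (Φ.symm t).1.val < r := by
            by_contra hge
            push Not at hge
            have : 2 * r ≤ n * (Φ.symm t).1.val := Nat.mul_le_mul hn hge
            omega
          simpa using e6
        · intro t h2 t' h3 h4
          have h5 : t.val < r + r ∧ col t = k := by simpa using h2
          have h6 : t'.val < r + r ∧ col t' = k := by simpa using h3
          have h7 : (Φ.symm t).1 = (Φ.symm t').1 := Fin.ext h4
          have h8 : (Φ.symm t).2 = (Φ.symm t').2 := Fin.ext (h5.2.trans h6.2.symm)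
          exact Φ.symm.injective (Prod.ext h7 h8)
      rwa [Finset.card_range] at e3
    simp only [u]
    rw [e1]
    exact (Finset.card_union_le _ _).trans (Nat.add_le_add_left e2 _)
  obtain ⟨k, hkn, hk1, hk2⟩ : ∃ k, k ≤ n ∧ r ≤ 2 * u k ∧ 2 * u k ≤ 3 * r := by
    classical
    have hex : ∃ k, r ≤ 2 * u k := ⟨n, by rw [hun]; omega⟩
    refine ⟨Nat.find hex, Nat.find_min' hex (by rw [hun]; omega), Nat.find_spec hex, ?_⟩
    rcases Nat.eq_zero_or_pos (Nat.find hex) with h2 | h2
    · rw [h2, hu0]; omega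
    · obtain ⟨k', hk'⟩ : ∃ k', Nat.find hex = k' + 1 := ⟨Nat.find hex - 1, by omega⟩
      have h3 := Nat.find_min hex (show k' < Nat.find hex by omega)
      have h4 := hstep k'
      rw [hk']
      omega
  refine le_iSup_of_le (⟨k, by omega⟩ : Fin (n + 1)) ?_
  rw [← ofReal_norm]
  apply ENNReal.ofReal_le_ofReal
  show 1 / 9 * (r : ℝ) ^ (1 / p.toReal) ≤ ‖∑ j, prefixSum (fun i => A j (π j i)) k‖
  rw [hpre k]
  set y := ∑ t : Fin (m * n), (if col t < k then (1 : ℝ) else 0) • ent p r t.val with hy
  set b : ℝ := ∑ t : Fin (m * n), if r ≤ t.val ∧ t.val < r + r then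
    (if col t < k then (1 : ℝ) else 0) else 0 with hb
  set a : ℝ := ∑ t : Fin (m * n), if t.val < r then (if col t < k then (1 : ℝ) else 0) else 0
    with ha
  have hyc : ∀ c : Fin r, y c = (if col (Fin.castLE hrN c) < k then (1 : ℝ) else 0) - b / r := by
    intro c
    rw [hy, hcoord (fun t => if col t < k then (1 : ℝ) else 0) c, ← hb]
    ring
  have hab : a + b = u k := by
    have e1 : (u k : ℝ) = ∑ t : Fin (m * n), if t.val < r + r ∧ col t < k then (1 : ℝ) else 0 := by
      simp only [u]
      rw [← Finset.sum_filter, Finset.sum_const, nsmul_eq_mul, mul_one]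
    rw [e1, ha, hb, ← Finset.sum_add_distrib]
    refine Finset.sum_congr rfl fun t _ => ?_
    by_cases h2 : t.val < r
    · have h3 : ¬ (r ≤ t.val ∧ t.val < r + r) := by omega
      have h4 : t.val < r + r := by omega
      simp [h2, h4]
    · by_cases h3 : t.val < r + r
      · have h4 : r ≤ t.val := by omega
        simp [h2, h3, h4]
      · simp [h2, h3]
  have ha0 : 0 ≤ a := Finset.sum_nonneg fun t _ => by split_ifs <;> norm_num
  have hb0 : 0 ≤ b := Finset.sum_nonneg fun t _ => by split_ifs <;> norm_num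
  have hacast : a = ∑ c : Fin r, (if col (Fin.castLE hrN c) < k then (1 : ℝ) else 0) := by
    rw [sum_castLE hrN (fun t => if col t < k then (1 : ℝ) else 0), ha]
  have har : a ≤ r := by
    rw [hacast]
    refine (Finset.sum_le_sum fun c _ => (show (if col (Fin.castLE hrN c) < k then (1 : ℝ) else 0)
      ≤ 1 by split_ifs <;> norm_num)).trans ?_
    simp
  have hbr : b ≤ r := by
    have e1 : (Finset.univ.filter fun t : Fin (m * n) => t.val < r + r).card = r + r :=
      hcard _ hmn
    have e2 : b ≤ ∑ t : Fin (m * n), if r ≤ t.val ∧ t.val < r + r then (1 : ℝ) else 0 := by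
      rw [hb]
      refine Finset.sum_le_sum fun t _ => ?_
      split_ifs <;> norm_num
    have e3 : (∑ t : Fin (m * n), if r ≤ t.val ∧ t.val < r + r then (1 : ℝ) else 0)
        + (∑ t : Fin (m * n), if t.val < r then (1 : ℝ) else 0)
        = ∑ t : Fin (m * n), if t.val < r + r then (1 : ℝ) else 0 := by
      rw [← Finset.sum_add_distrib]
      refine Finset.sum_congr rfl fun t _ => ?_
      by_cases h2 : t.val < r
      · have h4 : t.val < r + r := by omega
        have h5 : ¬ r ≤ t.val := by omega
        simp [h2, h4, h5]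
      · by_cases h3 : t.val < r + r
        · have h4 : r ≤ t.val := by omega
          simp [h2, h3, h4]
        · simp [h2, h3]
    have e4 : (∑ t : Fin (m * n), if t.val < r then (1 : ℝ) else 0) = r := by
      rw [← Finset.sum_filter, Finset.sum_const, nsmul_eq_mul, mul_one, hcard r hrN]
    have e5 : (∑ t : Fin (m * n), if t.val < r + r then (1 : ℝ) else 0) = r + r := by
      rw [← Finset.sum_filter, Finset.sum_const, nsmul_eq_mul, mul_one, hcard _ hmn]
      push_cast; ring
    linarith
  have hk1' : (r : ℝ) ≤ 2 * (a + b) := by rw [hab]; exact_mod_cast hk1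
  have hk2' : 2 * (a + b) ≤ 3 * (r : ℝ) := by rw [hab]; exact_mod_cast hk2
  -- the quadratic form
  have hF := F_ge (a := a / r) (b := b / r) (by positivity) (by rwa [div_le_one hr0])
    (by rw [← add_div, le_div_iff₀ hr0]; linarith) (by rw [← add_div, div_le_iff₀ hr0]; linarith)
  have hsq : ∑ c, |y c| ^ 2 = r * (a / r - 2 * (a / r) * (b / r) + (b / r) ^ 2) := by
    have e1 : ∀ c : Fin r, |y c| ^ 2 = (1 - 2 * (b / r)) *
        (if col (Fin.castLE hrN c) < k then (1 : ℝ) else 0) + (b / r) ^ 2 := by
      intro c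
      rw [sq_abs, hyc]
      split_ifs <;> ring
    rw [Finset.sum_congr rfl (fun c _ => e1 c), Finset.sum_add_distrib, ← Finset.mul_sum,
      ← hacast, Finset.sum_const, Finset.card_univ, Fintype.card_fin, nsmul_eq_mul]
    field_simp
  have h3 : (r : ℝ) / 9 ≤ ∑ c, |y c| ^ 2 := by
    rw [hsq]
    have := mul_le_mul_of_nonneg_left hF hr0.le
    linarith
  have h4 : ∀ c, |y c| ≤ 1 := by
    intro c
    rw [hyc]
    have e1 : b / r ≤ 1 := by rwa [div_le_one hr0]
    have e2 : 0 ≤ b / r := by positivity
    rw [abs_le]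
    split_ifs <;> constructor <;> linarith
  have h6 := norm_ge_of hp y (A := (r : ℝ) / 9) (by positivity)
    (h3.trans (sum_ge_sq hp (fun i => y i) h4 h0))
  refine le_trans ?_ h6
  rw [Real.div_rpow (Nat.cast_nonneg r) (by norm_num)]
  have h7 : (9 : ℝ) ^ (1 / p.toReal) ≤ 9 := by
    calc (9 : ℝ) ^ (1 / p.toReal) ≤ (9 : ℝ) ^ (1 : ℝ) :=
          Real.rpow_le_rpow_of_exponent_le (by norm_num) ((div_le_one h0).2 h1)
      _ = 9 := Real.rpow_one _
  have h8 : 0 < (9 : ℝ) ^ (1 / p.toReal) := by positivity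
  rw [one_div, inv_mul_eq_div]
  exact div_le_div_of_nonneg_left (by positivity) h8 h7

/-- An isometric embedding does not decrease the constant of matrices. -/
lemma matrixSteinitz_mono_isometry {E F : Type} [NormedAddCommGroup E] [NormedSpace ℝ E]
    [NormedAddCommGroup F] [NormedSpace ℝ F]
    (T : E →ₗ[ℝ] F) (hT : ∀ x, ‖T x‖ = ‖x‖) (m n : ℕ) :
    matrixSteinitz E m n ≤ matrixSteinitz F m n := by
  unfold matrixSteinitz
  refine iSup_le fun A => iSup_le fun hA => iSup_le fun h0 => ?_
  refine le_iSup_of_le (fun j i => T (A j i)) (le_iSup_of_le (fun j i => by rw [hT]; exact hA j i)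
    (le_iSup_of_le (by simp only [← map_sum, h0, map_zero]) ?_))
  unfold bestRows
  refine iInf_mono fun π => iSup_mono fun k => le_of_eq ?_
  have h1 : ∑ j, prefixSum (fun i => T (A j (π j i))) k.val
      = T (∑ j, prefixSum (fun i => A j (π j i)) k.val) := by
    rw [map_sum]
    refine Finset.sum_congr rfl fun j _ => ?_
    rw [map_prefixSum T (fun i => A j (π j i))]
  rw [h1, ← ofReal_norm, ← ofReal_norm, hT]

/-- `min(d, m n)^(1/p) / 27` is a lower bound for matrices with `m` rows and `n ≥ 2` columns. -/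
theorem matrix_lower {p : ℝ≥0∞} [hp1 : Fact (1 ≤ p)] (hp : p ≤ 2) {d m n : ℕ} (hd : 1 ≤ d)
    (hm : 1 ≤ m) (hn : 2 ≤ n) :
    ENNReal.ofReal (1 / 27 * ((min d (m * n) : ℕ) : ℝ) ^ (1 / p.toReal)) ≤
      matrixSteinitz (PiLp p (fun _ : Fin d => ℝ)) m n := by
  have ht := ne_top_of_le_two hp
  have h1 := toReal_ge_one hp1.out ht
  have h0 : 0 < p.toReal := by linarith
  have hmn : 2 ≤ m * n := by
    calc 2 = 1 * 2 := by norm_num
      _ ≤ m * n := Nat.mul_le_mul hm hn
  obtain ⟨r, hr⟩ : ∃ r, r = min d (m * n / 2) := ⟨_, rfl⟩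
  have hr1 : 1 ≤ r := by omega
  have hrd : r ≤ d := by omega
  have hrN : r + r ≤ m * n := by omega
  have hr3 : min d (m * n) ≤ 3 * r := by omega
  refine le_trans ?_ ((matrix_lower_aux (r := r) hp hr1 hn hrN).trans
    (matrixSteinitz_mono_isometry (emb p r d) (norm_emb hp hrd) m n))
  apply ENNReal.ofReal_le_ofReal
  have h2 : ((min d (m * n) : ℕ) : ℝ) ^ (1 / p.toReal) ≤ 3 * (r : ℝ) ^ (1 / p.toReal) := by
    have h3 : ((min d (m * n) : ℕ) : ℝ) ≤ 3 * r := by exact_mod_cast hr3
    calc ((min d (m * n) : ℕ) : ℝ) ^ (1 / p.toReal) ≤ (3 * (r : ℝ)) ^ (1 / p.toReal) :=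
          Real.rpow_le_rpow (Nat.cast_nonneg _) h3 (by positivity)
      _ = 3 ^ (1 / p.toReal) * (r : ℝ) ^ (1 / p.toReal) :=
          Real.mul_rpow (by norm_num) (Nat.cast_nonneg _)
      _ ≤ 3 * (r : ℝ) ^ (1 / p.toReal) := by
          refine mul_le_mul_of_nonneg_right ?_ (by positivity)
          calc (3 : ℝ) ^ (1 / p.toReal) ≤ (3 : ℝ) ^ (1 : ℝ) :=
                Real.rpow_le_rpow_of_exponent_le (by norm_num) ((div_le_one h0).2 h1)
            _ = 3 := Real.rpow_one _
  linarith

end Vale.Agent.P262.H865
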