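import Vale.Agent.P262.H865.Prefix
import Vale.Agent.P262.H865.MatLower
import Vale.Agent.P262.H691.Final

/-!
# Assembly (P262)
-/

open scoped ENNReal

namespace Vale.Agent.P262.H865

open Vale.Agent.P262 Vale.Agent.P262.H691 Vale.Agent.P262.Sqrt

/-- Transfer of `σ(E, N)`. -/
lemma signedN_le_of_map {E F : Type} [NormedAddCommGroup E] [NormedSpace ℝ E]
    [NormedAddCommGroup F] [NormedSpace ℝ F] (T : E →ₗ[ℝ] F) {D : ℝ} (hD : 0 ≤ D)
    (h1 : ∀ x, ‖T x‖ ≤ ‖x‖) (h : ∀ x, ‖x‖ ≤ D * ‖T x‖) (N : ℕ) :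
    signedN E N ≤ ENNReal.ofReal D * signedN F N := by
  unfold signedN
  refine iSup_le fun v => iSup_le fun hv => ?_
  obtain ⟨e, he⟩ := exists_eq_ciInf_of_finite
    (f := fun e : Fin N → ℤˣ => ⨆ k : Fin (N + 1),
      ‖prefixSum (fun i => ((e i : ℤ) : ℝ) • T (v i)) k.val‖ₑ)
  refine iInf_le_of_le e (iSup_le fun k => ?_)
  refine (enorm_le_of T hD h _).trans ?_
  refine mul_le_mul_right ?_ _
  refine le_iSup_of_le (fun i => T (v i)) (le_iSup_of_le (fun i => (h1 _).trans (hv i)) ?_)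
  rw [← he, map_prefixSum]
  simp only [map_smul]
  exact le_iSup (fun k : Fin (N + 1) =>
    ‖prefixSum (fun i => ((e i : ℤ) : ℝ) • T (v i)) k.val‖ₑ) k

/-- The factor `min (log (d + 1)) √(1 + log N / d)`. -/
lemma factor_ge {d : ℕ} (hd : 1 ≤ d) (N : ℕ) :
    1 / 2 ≤ min (Real.log (d + 1)) (Real.sqrt (1 + Real.log N / d)) := by
  refine le_min ?_ ?_
  · have h1 := Real.log_two_gt_d9
    have h2 : Real.log 2 ≤ Real.log ((d : ℝ) + 1) := by
      apply Real.log_le_log (by norm_num)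
      have : (1 : ℝ) ≤ d := by exact_mod_cast hd
      linarith
    linarith
  · have h1 : (1 : ℝ) ≤ Real.sqrt (1 + Real.log N / d) := by
      rw [Real.one_le_sqrt]
      have : 0 ≤ Real.log (N : ℝ) / d := div_nonneg (Real.log_natCast_nonneg N) (Nat.cast_nonneg _)
      linarith
    linarith

lemma factor_mono {d : ℕ} {N N' : ℕ} (hN : 1 ≤ N) (h : N ≤ N') :
    min (Real.log (d + 1)) (Real.sqrt (1 + Real.log N / d)) ≤
      min (Real.log ((d : ℝ) + 1)) (Real.sqrt (1 + Real.log N' / d)) := by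
  refine min_le_min le_rfl (Real.sqrt_le_sqrt ?_)
  have h1 : Real.log (N : ℝ) ≤ Real.log N' :=
    Real.log_le_log (by exact_mod_cast hN) (by exact_mod_cast h)
  have h2 : Real.log (N : ℝ) / d ≤ Real.log N' / d :=
    div_le_div_of_nonneg_right h1 (Nat.cast_nonneg _)
  linarith

/-- **Main theorem.** -/
theorem two_parameters : ∃ c C : ℝ, 0 < c ∧ 0 < C ∧
    -- (1) the two constants `S_2(d)` and `σ(d)` of the problem
    (∀ d : ℕ, 1 ≤ d →
      (ENNReal.ofReal (c * Real.sqrt d) ≤ steinitzConst d ∧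
        steinitzConst d ≤ ENNReal.ofReal (C * Real.sqrt d)) ∧
      (ENNReal.ofReal (Real.sqrt d) ≤ signedConst d ∧
        signedConst d ≤ ENNReal.ofReal (C * (Real.sqrt d * Real.log (d + 1))))) ∧
    -- (2) `S(ℓ_p^d, N)` and `σ(ℓ_p^d, N)` for all `1 ≤ p ≤ 2`, all `d` and all `N`
    (∀ (p : ℝ≥0∞) [Fact (1 ≤ p)], p ≤ 2 → ∀ d N : ℕ, 1 ≤ d →
      (2 ≤ N → ENNReal.ofReal (c * ((min d N : ℕ) : ℝ) ^ (1 / p.toReal)) ≤
        steinitzN (PiLp p (fun _ : Fin d => ℝ)) N) ∧
      steinitzN (PiLp p (fun _ : Fin d => ℝ)) N ≤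
        ENNReal.ofReal (C * ((min d N : ℕ) : ℝ) ^ (1 / p.toReal)) ∧
      ENNReal.ofReal (((min d N : ℕ) : ℝ) ^ (1 / p.toReal)) ≤
        signedN (PiLp p (fun _ : Fin d => ℝ)) N ∧
      signedN (PiLp p (fun _ : Fin d => ℝ)) N ≤
        ENNReal.ofReal (C * (((min d N : ℕ) : ℝ) ^ (1 / p.toReal) *
          min (Real.log (d + 1)) (Real.sqrt (1 + Real.log N / d)))) ∧
      (N ≤ d → signedN (PiLp p (fun _ : Fin d => ℝ)) N =
        ENNReal.ofReal ((N : ℝ) ^ (1 / p.toReal)))) ∧
    -- (3) matrices of vectors, in every normed space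
    (∀ (E : Type) [NormedAddCommGroup E] [NormedSpace ℝ E] (m n : ℕ), 1 ≤ m →
      steinitzN E n ≤ matrixSteinitz E m n ∧
      matrixSteinitz E m n ≤ 2 * signedN E (n / 2 * m)) ∧
    -- (4) matrices of vectors, in `ℓ_p^d`, `1 ≤ p ≤ 2`
    (∀ (p : ℝ≥0∞) [Fact (1 ≤ p)], p ≤ 2 → ∀ d m n : ℕ, 1 ≤ d → 1 ≤ m → 2 ≤ n →
      ENNReal.ofReal (c * ((min d (m * n) : ℕ) : ℝ) ^ (1 / p.toReal)) ≤
        matrixSteinitz (PiLp p (fun _ : Fin d => ℝ)) m n ∧
      matrixSteinitz (PiLp p (fun _ : Fin d => ℝ)) m n ≤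
        ENNReal.ofReal (C * (((min d (m * n) : ℕ) : ℝ) ^ (1 / p.toReal) *
          min (Real.log (d + 1)) (Real.sqrt (1 + Real.log (m * n : ℕ) / d))))) := by
  obtain ⟨c₀, C₀, hc₀, hC₀, H⟩ := steinitz_lp_order
  obtain ⟨K, hK, hK1, hK2⟩ : ∃ K : ℝ, 0 < K ∧ C₀ ≤ K ∧ 7 ≤ K :=
    ⟨C₀ + 7, by linarith, by linarith, by linarith⟩
  -- the bound for `σ(ℓ_p^d, N)`
  have hsig : ∀ (p : ℝ≥0∞) [Fact (1 ≤ p)], p ≤ 2 → ∀ d N : ℕ, 1 ≤ d →
      signedN (PiLp p (fun _ : Fin d => ℝ)) N ≤
        ENNReal.ofReal (K * (((min d N : ℕ) : ℝ) ^ (1 / p.toReal) *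
          min (Real.log (d + 1)) (Real.sqrt (1 + Real.log N / d)))) := by
    intro p hp1 hp d N hd
    have hd0 : (0 : ℝ) < d := by exact_mod_cast hd
    have hF := factor_ge hd N
    set F := min (Real.log ((d : ℝ) + 1)) (Real.sqrt (1 + Real.log N / d)) with hFdef
    rcases Nat.lt_or_ge N d with hNd | hNd
    · refine (signedN_lp_le hp N).trans (ENNReal.ofReal_le_ofReal ?_)
      rw [min_eq_right hNd.le]
      have h1 : 0 ≤ (N : ℝ) ^ (1 / p.toReal) := by positivity
      nlinarith [mul_le_mul_of_nonneg_left hF h1]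
    · have hN1 : 1 ≤ N := hd.trans hNd
      rw [min_eq_left hNd]
      have e : (d : ℝ) ^ (1 / p.toReal - 1 / 2) * Real.sqrt d = (d : ℝ) ^ (1 / p.toReal) := by
        rw [Real.sqrt_eq_rpow, ← Real.rpow_add hd0]
        congr 1
        ring
      have h2 : signedN (EuclideanSpace ℝ (Fin d)) N ≤ ENNReal.ofReal (K * (Real.sqrt d * F)) := by
        rcases le_total (Real.log ((d : ℝ) + 1)) (Real.sqrt (1 + Real.log N / d)) with h3 | h3
        · have h4 : F = Real.log ((d : ℝ) + 1) := min_eq_left h3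
          rw [h4]
          refine (signedN_le N).trans (((H d hd).1.2.2).trans (ENNReal.ofReal_le_ofReal ?_))
          have h5 : 0 ≤ Real.log ((d : ℝ) + 1) := Real.log_nonneg (by linarith)
          exact mul_le_mul_of_nonneg_right hK1 (mul_nonneg (Real.sqrt_nonneg _) h5)
        · have h4 : F = Real.sqrt (1 + Real.log N / d) := min_eq_right h3
          rw [h4]
          refine (signedN_euclid_le d N hN1).trans (ENNReal.ofReal_le_ofReal ?_)
          have h5 : Real.sqrt (d + Real.log N) = Real.sqrt d * Real.sqrt (1 + Real.log N / d) := by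
            rw [← Real.sqrt_mul hd0.le]
            congr 1
            field_simp
          rw [h5]
          exact mul_le_mul_of_nonneg_right hK2 (by positivity)
      refine (signedN_le_of_map (toE p d) (by positivity) (le2_a hp) (le2_b hp) N).trans
        ((mul_le_mul_right h2 _).trans ?_)
      rw [← ENNReal.ofReal_mul (by positivity)]
      apply ENNReal.ofReal_le_ofReal
      refine le_of_eq ?_
      rw [← e]
      ring
  refine ⟨min c₀ (1 / 27), 2 * K, by positivity, by positivity, ?_, ?_, ?_, ?_⟩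
  · intro d hd
    obtain ⟨⟨h1, h2⟩, h3, h4⟩ := (H d hd).1
    have hlog : 0 ≤ Real.log ((d : ℝ) + 1) :=
      Real.log_nonneg (by have : (0 : ℝ) ≤ d := Nat.cast_nonneg d; linarith)
    refine ⟨⟨le_trans (ENNReal.ofReal_le_ofReal ?_) h1, h2.trans (ENNReal.ofReal_le_ofReal ?_)⟩, h3,
      h4.trans (ENNReal.ofReal_le_ofReal ?_)⟩
    · exact mul_le_mul_of_nonneg_right (min_le_left _ _) (Real.sqrt_nonneg _)
    · exact mul_le_mul_of_nonneg_right (by linarith) (Real.sqrt_nonneg _)
    · exact mul_le_mul_of_nonneg_right (by linarith) (mul_nonneg (Real.sqrt_nonneg _) hlog)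
  · intro p hp1 hp d N hd
    have hd0 : (0 : ℝ) < d := by exact_mod_cast hd
    refine ⟨fun hN => ?_, ?_, signedN_lower hp N, ?_, fun hN => signedN_eq hp hN⟩
    · refine le_trans (ENNReal.ofReal_le_ofReal ?_) (steinitzN_lower hp hd hN)
      exact mul_le_mul_of_nonneg_right (min_le_right _ _) (by positivity)
    · rcases Nat.lt_or_ge N d with hNd | hNd
      · rw [min_eq_right hNd.le]
        refine (steinitzN_le_signedN N).trans ((mul_le_mul_right (signedN_lp_le hp (N / 2)) 2).trans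
          ?_)
        have h2 : (2 : ℝ≥0∞) = ENNReal.ofReal 2 := by simp
        rw [h2, ← ENNReal.ofReal_mul (by norm_num)]
        apply ENNReal.ofReal_le_ofReal
        have h3 : ((N / 2 : ℕ) : ℝ) ^ (1 / p.toReal) ≤ (N : ℝ) ^ (1 / p.toReal) :=
          Real.rpow_le_rpow (Nat.cast_nonneg _) (by exact_mod_cast Nat.div_le_self N 2)
            (by positivity)
        have h4 : 0 ≤ (N : ℝ) ^ (1 / p.toReal) := by positivity
        nlinarith
      · rw [min_eq_left hNd]
        refine (steinitzN_le N).trans ((((H d hd).2.1 p hp).1.2).trans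
          (ENNReal.ofReal_le_ofReal ?_))
        exact mul_le_mul_of_nonneg_right (by linarith) (by positivity)
    · refine (hsig p hp d N hd).trans (ENNReal.ofReal_le_ofReal ?_)
      have h1 := factor_ge hd N
      exact mul_le_mul_of_nonneg_right (by linarith)
        (mul_nonneg (by positivity) (by linarith))
  · intro E _ _ m n hm
    exact ⟨steinitzN_le_matrix hm n, matrixSteinitz_le m n⟩
  · intro p hp1 hp d m n hd hm hn
    refine ⟨le_trans (ENNReal.ofReal_le_ofReal ?_) (matrix_lower hp hd hm hn), ?_⟩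
    · exact mul_le_mul_of_nonneg_right (min_le_right _ _) (by positivity)
    · refine (matrixSteinitz_le m n).trans ((mul_le_mul_right (hsig p hp d (n / 2 * m) hd)
        2).trans ?_)
      have h2 : (2 : ℝ≥0∞) = ENNReal.ofReal 2 := by simp
      rw [h2, ← ENNReal.ofReal_mul (by norm_num)]
      apply ENNReal.ofReal_le_ofReal
      have hle : n / 2 * m ≤ m * n := by
        rw [mul_comm m n]
        exact Nat.mul_le_mul_right m (Nat.div_le_self n 2)
      have h1le : 1 ≤ n / 2 * m := by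
        calc 1 = 1 * 1 := rfl
          _ ≤ n / 2 * m := Nat.mul_le_mul (by omega) hm
      have h3 : ((min d (n / 2 * m) : ℕ) : ℝ) ^ (1 / p.toReal) ≤
          ((min d (m * n) : ℕ) : ℝ) ^ (1 / p.toReal) :=
        Real.rpow_le_rpow (Nat.cast_nonneg _)
          (by exact_mod_cast min_le_min le_rfl hle) (by positivity)
      have h4 := factor_mono (d := d) h1le hle
      have h5 := factor_ge hd (n / 2 * m)
      calc 2 * (K * (((min d (n / 2 * m) : ℕ) : ℝ) ^ (1 / p.toReal) *
            min (Real.log (d + 1)) (Real.sqrt (1 + Real.log (n / 2 * m : ℕ) / d))))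
          = 2 * K * (((min d (n / 2 * m) : ℕ) : ℝ) ^ (1 / p.toReal) *
            min (Real.log (d + 1)) (Real.sqrt (1 + Real.log (n / 2 * m : ℕ) / d))) := by ring
        _ ≤ 2 * K * (((min d (m * n) : ℕ) : ℝ) ^ (1 / p.toReal) *
            min (Real.log (d + 1)) (Real.sqrt (1 + Real.log (m * n : ℕ) / d))) := by
          refine mul_le_mul_of_nonneg_left (mul_le_mul h3 h4 (by linarith) (by positivity))
            (by positivity)

end Vale.Agent.P262.H865
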