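import Vale.Agent.P262.H865.Matrix
import Vale.Agent.P262.H691.Lower
import Vale.Agent.P262.Bdl.B1

/-!
# Two-parameter bounds: greedy signs in `ℓ_p^d`, the prefix theorem with `log N` (P262)
-/

open scoped ENNReal BigOperators

namespace Vale.Agent.P262.H865

open Vale.Agent.P262.H691 Vale.Agent.P262.Sqrt MeasureTheory ProbabilityTheory

section general

variable {E : Type} [NormedAddCommGroup E] [NormedSpace ℝ E]

/-- Upper bounds for `signedN` from signs on natural numbers. -/
lemma signedN_le_of_nat {N : ℕ} {R : ℝ}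
    (h : ∀ v : ℕ → E, (∀ i, ‖v i‖ ≤ 1) → ∃ e : ℕ → Bool, ∀ m ≤ N,
      ‖∑ i ∈ Finset.range m, (if e i then v i else - v i)‖ ≤ R) :
    signedN E N ≤ ENNReal.ofReal R := by
  unfold signedN
  refine iSup_le fun v => iSup_le fun hv => ?_
  obtain ⟨e, he⟩ := h (fun i => if h : i < N then v ⟨i, h⟩ else 0) (by
    intro i
    split_ifs
    · exact hv _
    · simp)
  refine (iInf_le _ (fun i : Fin N => if e i.val then (1 : ℤˣ) else -1)).trans
    (iSup_le fun k => ?_)
  rw [← ofReal_norm]
  apply ENNReal.ofReal_le_ofReal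
  have hk : k.val ≤ N := Nat.lt_succ_iff.1 k.2
  refine le_trans (le_of_eq ?_) (he k.val hk)
  congr 1
  refine prefix_eq_range _ _ ?_ hk
  intro i
  simp only [i.2, dif_pos, Fin.eta]
  by_cases h : e i.val = true <;> simp [h]

omit [NormedSpace ℝ E] in
/-- Greedy signs. -/
lemma greedy {r : ℝ} (hr : 0 < r)
    (h : ∀ x y : E, ‖x + y‖ ^ r + ‖x - y‖ ^ r ≤ 2 * (‖x‖ ^ r + ‖y‖ ^ r))
    (v : ℕ → E) (hv : ∀ i, ‖v i‖ ≤ 1) (N : ℕ) : ∃ e : ℕ → Bool, ∀ m ≤ N,
      ‖∑ i ∈ Finset.range m, (if e i then v i else - v i)‖ ^ r ≤ m := by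
  induction N with
  | zero =>
    refine ⟨fun _ => true, fun m hm => ?_⟩
    obtain rfl : m = 0 := by omega
    simp [Real.zero_rpow hr.ne']
  | succ N ih =>
    obtain ⟨e, he⟩ := ih
    set S : E := ∑ i ∈ Finset.range N, (if e i then v i else - v i) with hS
    have h1 := h S (v N)
    have h2 := he N le_rfl
    rw [← hS] at h2
    have h3 : ‖v N‖ ^ r ≤ 1 := Real.rpow_le_one (norm_nonneg _) (hv N) hr.le
    have hex : ∃ b : Bool, ‖S + (if b then v N else - v N)‖ ^ r ≤ (N + 1 : ℕ) := by
      by_contra hne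
      push Not at hne
      have a1 := hne true
      have a2 := hne false
      simp only [if_true, Bool.false_eq_true, if_false, ← sub_eq_add_neg] at a1 a2
      push_cast at a1 a2
      linarith
    obtain ⟨b, hb⟩ := hex
    refine ⟨Function.update e N b, fun m hm => ?_⟩
    rcases Nat.lt_or_ge m (N + 1) with hm1 | hm1
    · have h4 : ∑ i ∈ Finset.range m, (if Function.update e N b i then v i else - v i)
          = ∑ i ∈ Finset.range m, (if e i then v i else - v i) := by
        refine Finset.sum_congr rfl fun i hi => ?_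
        have : i ≠ N := by have := Finset.mem_range.1 hi; omega
        rw [Function.update_of_ne this]
      rw [h4]
      exact he m (by omega)
    · obtain rfl : m = N + 1 := by omega
      rw [Finset.sum_range_succ]
      have h4 : ∑ i ∈ Finset.range N, (if Function.update e N b i then v i else - v i) = S := by
        rw [hS]
        refine Finset.sum_congr rfl fun i hi => ?_
        have : i ≠ N := by have := Finset.mem_range.1 hi; omega
        rw [Function.update_of_ne this]
      rw [h4, Function.update_self]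
      exact hb

/-- An isometric embedding does not decrease `S(E, N)`. -/
lemma steinitzN_mono_isometry {F : Type} [NormedAddCommGroup F] [NormedSpace ℝ F]
    (T : E →ₗ[ℝ] F) (hT : ∀ x, ‖T x‖ = ‖x‖) (N : ℕ) : steinitzN E N ≤ steinitzN F N := by
  unfold steinitzN
  refine iSup_le fun v => iSup_le fun hv => iSup_le fun h0 => ?_
  refine le_iSup_of_le (fun i => T (v i)) (le_iSup_of_le (fun i => by rw [hT]; exact hv i)
    (le_iSup_of_le (by rw [← map_sum, h0, map_zero]) ?_))
  unfold bestOrder
  refine iInf_mono fun π => iSup_mono fun k => le_of_eq ?_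
  rw [← map_prefixSum T (fun i => v (π i)), ← ofReal_norm, ← ofReal_norm, hT]

/-- An isometric embedding does not decrease `σ(E, N)`. -/
lemma signedN_mono_isometry {F : Type} [NormedAddCommGroup F] [NormedSpace ℝ F]
    (T : E →ₗ[ℝ] F) (hT : ∀ x, ‖T x‖ = ‖x‖) (N : ℕ) : signedN E N ≤ signedN F N := by
  unfold signedN
  refine iSup_le fun v => iSup_le fun hv => ?_
  refine le_iSup_of_le (fun i => T (v i)) (le_iSup_of_le (fun i => by rw [hT]; exact hv i) ?_)
  refine iInf_mono fun ε => iSup_mono fun k => le_of_eq ?_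
  have h1 : (fun i => ((ε i : ℤ) : ℝ) • T (v i)) = fun i => T (((ε i : ℤ) : ℝ) • v i) := by
    funext i; rw [map_smul]
  rw [h1, ← map_prefixSum T (fun i => ((ε i : ℤ) : ℝ) • v i), ← ofReal_norm, ← ofReal_norm, hT]

omit [NormedSpace ℝ E] in
lemma steinitzN_le (N : ℕ) : steinitzN E N ≤ steinitz E := by
  unfold steinitz steinitzN
  exact le_iSup (fun N : ℕ => ⨆ (v : Fin N → E) (_ : ∀ i, ‖v i‖ ≤ 1) (_ : ∑ i, v i = 0),
    bestOrder v) N

lemma signedN_le (N : ℕ) : signedN E N ≤ signed E := by
  unfold signed signedN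
  exact le_iSup (fun N : ℕ => ⨆ (v : Fin N → E) (_ : ∀ i, ‖v i‖ ≤ 1),
    ⨅ ε : Fin N → ℤˣ, ⨆ k : Fin (N + 1), ‖prefixSum (fun i => ((ε i : ℤ) : ℝ) • v i) k.val‖ₑ) N

/-- Padding with zero vectors. -/
lemma signedN_mono {N N' : ℕ} (h : N ≤ N') : signedN E N ≤ signedN E N' := by
  unfold signedN
  refine iSup_le fun v => iSup_le fun hv => ?_
  let w : Fin N' → E := fun i => if h : i.val < N then v ⟨i.val, h⟩ else 0
  refine le_iSup_of_le w (le_iSup_of_le (fun i => by
    simp only [w]
    split_ifs
    · exact hv _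
    · simp) ?_)
  refine le_iInf fun ε => ?_
  refine (iInf_le _ (fun i : Fin N => ε (Fin.castLE h i))).trans (iSup_le fun k => ?_)
  refine le_iSup_of_le (Fin.castLE (by omega) k) (le_of_eq ?_)
  congr 1
  let b : ℕ → E := fun i => if h : i < N' then (((ε ⟨i, h⟩ : ℤˣ) : ℤ) : ℝ) • w ⟨i, h⟩ else 0
  have hk : k.val ≤ N := Nat.lt_succ_iff.1 k.2
  rw [prefix_eq_range _ b ?_ hk]
  · symm
    show prefixSum _ k.val = _
    refine prefix_eq_range _ b ?_ (hk.trans h)
    intro i
    simp only [b, i.2, dif_pos, Fin.eta]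
  · intro i
    have h1 : i.val < N' := lt_of_lt_of_le i.2 h
    simp only [b, h1, dif_pos, w, i.2, Fin.eta]
    rfl

omit [NormedSpace ℝ E] in
/-- Padding with zero vectors: every arrangement of the padded family induces an arrangement of
the family, whose prefix sums are prefix sums of the padded one. -/
lemma steinitzN_mono {N N' : ℕ} (h : N ≤ N') : steinitzN E N ≤ steinitzN E N' := by
  unfold steinitzN
  refine iSup_le fun v => iSup_le fun hv => iSup_le fun h0 => ?_
  let w : Fin N' → E := fun i => if h : i.val < N then v ⟨i.val, h⟩ else 0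
  have hw0 : ∑ i, w i = 0 := by
    have h1 : ∑ i : Fin N', w i = ∑ i : Fin N, v i := by
      let b : ℕ → E := fun i => if h : i < N then v ⟨i, h⟩ else 0
      have h2 : ∑ i : Fin N', w i = ∑ i ∈ Finset.range N', b i :=
        (Finset.sum_range (n := N') b).symm
      have h3 : ∑ i : Fin N, v i = ∑ i ∈ Finset.range N, b i := by
        rw [Finset.sum_range (n := N) b]
        refine Finset.sum_congr rfl fun i _ => ?_
        simp only [b, i.2, dif_pos, Fin.eta]
      rw [h2, h3]
      symm
      refine Finset.sum_subset (Finset.range_mono h) ?_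
      intro i _ hi
      rw [Finset.mem_range] at hi
      simp only [b, hi, dif_neg, not_false_eq_true]
    rw [h1, h0]
  refine le_iSup_of_le w (le_iSup_of_le (fun i => by
    simp only [w]
    split_ifs
    · exact hv _
    · simp) (le_iSup_of_le hw0 ?_))
  unfold bestOrder
  refine le_iInf fun π' => ?_
  set P : Finset (Fin N') := Finset.univ.filter (fun i => (π' i).val < N) with hP
  have hcard : P.card = N := by
    have h1 : P.map π'.toEmbedding = Finset.univ.filter (fun i : Fin N' => i.val < N) := by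
      ext i
      simp only [Finset.mem_map, hP, Finset.mem_filter, Finset.mem_univ, true_and,
        Equiv.coe_toEmbedding]
      constructor
      · rintro ⟨a, ha, rfl⟩; exact ha
      · intro hi
        exact ⟨π'.symm i, by simpa using hi, by simp⟩
    have h2 := congrArg Finset.card h1
    rw [Finset.card_map] at h2
    rw [h2]
    have h3 : (Finset.univ.filter fun i : Fin N' => i.val < N).card = (Finset.range N).card := by
      refine Finset.card_bij (fun (i : Fin N') _ => i.val) ?_ ?_ ?_
      · intro i hi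
        simpa using hi
      · intro i _ j _ hij
        exact Fin.ext hij
      · intro j hj
        have hj' : j < N := by simpa using hj
        exact ⟨⟨j, by omega⟩, by simpa using hj', rfl⟩
    rw [h3, Finset.card_range]
  let g : Fin N ↪o Fin N' := P.orderEmbOfFin hcard
  have hg : ∀ j, (π' (g j)).val < N := fun j =>
    (Finset.mem_filter.1 (P.orderEmbOfFin_mem hcard j)).2
  have hgs : ∀ i : Fin N', i ∈ P → ∃ j, g j = i := by
    intro i hi
    have h1 := P.range_orderEmbOfFin hcard
    have h2 : i ∈ Set.range (P.orderEmbOfFin hcard) := by rw [h1]; exact hi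
    exact h2
  let π : Equiv.Perm (Fin N) := Equiv.ofBijective (fun j => (⟨(π' (g j)).val, hg j⟩ : Fin N))
    (Finite.injective_iff_bijective.1 fun a b hab => by
      have h1 : (π' (g a)).val = (π' (g b)).val := by simpa using congrArg Fin.val hab
      exact g.injective (π'.injective (Fin.ext h1)))
  have hπ : ∀ j, v (π j) = w (π' (g j)) := by
    intro j
    simp only [w, hg j, dif_pos]
    rfl
  refine (iInf_le _ π).trans (iSup_le fun k => ?_)
  have hk : k.val ≤ N := Nat.lt_succ_iff.1 k.2
  obtain ⟨K, hK, hKk⟩ : ∃ K : ℕ, K ≤ N' ∧ ∀ j : Fin N, j.val < k.val ↔ (g j).val < K := by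
    rcases Nat.lt_or_ge k.val N with hkN | hkN
    · refine ⟨(g ⟨k.val, hkN⟩).val, (g ⟨k.val, hkN⟩).2.le, fun j => ?_⟩
      have : g j < g ⟨k.val, hkN⟩ ↔ j < (⟨k.val, hkN⟩ : Fin N) := g.lt_iff_lt
      rw [Fin.lt_def, Fin.lt_def] at this
      exact this.symm
    · refine ⟨N', le_rfl, fun j => ?_⟩
      have h1 := j.2
      have h2 := (g j).2
      constructor <;> intro _ <;> omega
  refine le_iSup_of_le (⟨K, by omega⟩ : Fin (N' + 1)) (le_of_eq ?_)
  congr 1
  show prefixSum (fun i => v (π i)) k.val = prefixSum (fun i => w (π' i)) K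
  unfold prefixSum
  have h1 : ∑ i : Fin N' with i.val < K, w (π' i)
      = ∑ i ∈ (Finset.univ.filter fun j : Fin N => j.val < k.val).map g.toEmbedding, w (π' i) := by
    symm
    refine Finset.sum_subset ?_ ?_
    · intro i hi
      obtain ⟨j, hj, rfl⟩ := Finset.mem_map.1 hi
      rw [Finset.mem_filter] at hj ⊢
      exact ⟨Finset.mem_univ _, (hKk j).1 hj.2⟩
    · intro i hi hi'
      by_cases h2 : i ∈ P
      · obtain ⟨j, rfl⟩ := hgs i h2
        exfalso
        apply hi'
        refine Finset.mem_map.2 ⟨j, ?_, rfl⟩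
        rw [Finset.mem_filter] at hi ⊢
        exact ⟨Finset.mem_univ _, (hKk j).2 hi.2⟩
      · have h3 : ¬ (π' i).val < N := fun h4 => h2 (Finset.mem_filter.2 ⟨Finset.mem_univ _, h4⟩)
        simp only [w, h3, dif_neg, not_false_eq_true]
  rw [h1, Finset.sum_map]
  exact Finset.sum_congr rfl fun j _ => hπ j

end general

end Vale.Agent.P262.H865
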