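import Vale.Agent.P262.H865.Lp
import Mathlib.Analysis.Convex.SpecificFunctions.Pow

/-!
# Two-parameter bounds in `ℓ_p^d`, `1 ≤ p ≤ 2` (P262)
-/

open scoped ENNReal BigOperators

namespace Vale.Agent.P262.H865

open Vale.Agent.P262.H691 Vale.Agent.P262.Sqrt Vale.Agent.P262.SqrtLower MeasureTheory
  ProbabilityTheory

/-- `|a + b|^r + |a - b|^r ≤ 2 (|a|^r + |b|^r)` for `1 ≤ r ≤ 2`. -/
lemma clarkson_real {r : ℝ} (h1 : 1 ≤ r) (h2 : r ≤ 2) (a b : ℝ) :
    |a + b| ^ r + |a - b| ^ r ≤ 2 * (|a| ^ r + |b| ^ r) := by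
  have e : ∀ x : ℝ, |x| ^ r = (x ^ 2) ^ (r / 2) := by
    intro x
    rw [← sq_abs x, ← Real.rpow_natCast, ← Real.rpow_mul (abs_nonneg x)]
    congr 1
    push_cast
    ring
  have hc := (Real.concaveOn_rpow (p := r / 2) (by linarith) (by linarith)).2
    (Set.mem_Ici.2 (sq_nonneg (a + b))) (Set.mem_Ici.2 (sq_nonneg (a - b)))
    (by norm_num : (0 : ℝ) ≤ 1 / 2) (by norm_num : (0 : ℝ) ≤ 1 / 2) (by norm_num)
  simp only [smul_eq_mul] at hc
  have h3 : 1 / 2 * (a + b) ^ 2 + 1 / 2 * (a - b) ^ 2 = a ^ 2 + b ^ 2 := by ring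
  rw [h3] at hc
  have h4 := Real.rpow_add_le_add_rpow (p := r / 2) (sq_nonneg a) (sq_nonneg b) (by linarith)
    (by linarith)
  rw [e, e, e, e]
  linarith

variable {d : ℕ}

lemma norm_rpow {p : ℝ≥0∞} [hp1 : Fact (1 ≤ p)] (hp : p ≤ 2)
    (x : PiLp p (fun _ : Fin d => ℝ)) : ‖x‖ ^ p.toReal = ∑ i, |x i| ^ p.toReal := by
  have ht := ne_top_of_le_two hp
  have h1 := toReal_ge_one hp1.out ht
  rw [norm_lp p ht, ← Real.rpow_mul (Finset.sum_nonneg fun i _ =>
    Real.rpow_nonneg (abs_nonneg _) _), one_div, inv_mul_cancel₀ (by linarith), Real.rpow_one]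

/-- The inequality behind the greedy signs. -/
lemma clarkson {p : ℝ≥0∞} [hp1 : Fact (1 ≤ p)] (hp : p ≤ 2)
    (x y : PiLp p (fun _ : Fin d => ℝ)) :
    ‖x + y‖ ^ p.toReal + ‖x - y‖ ^ p.toReal ≤ 2 * (‖x‖ ^ p.toReal + ‖y‖ ^ p.toReal) := by
  rw [norm_rpow hp, norm_rpow hp, norm_rpow hp, norm_rpow hp, ← Finset.sum_add_distrib,
    ← Finset.sum_add_distrib, Finset.mul_sum]
  refine Finset.sum_le_sum fun i _ => ?_
  exact clarkson_real (toReal_ge_one hp1.out (ne_top_of_le_two hp)) (toReal_le_two hp) _ _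

/-- `σ(ℓ_p^d, N) ≤ N^(1/p)`. -/
theorem signedN_lp_le {p : ℝ≥0∞} [hp1 : Fact (1 ≤ p)] (hp : p ≤ 2) (N : ℕ) :
    signedN (PiLp p (fun _ : Fin d => ℝ)) N ≤ ENNReal.ofReal ((N : ℝ) ^ (1 / p.toReal)) := by
  have ht := ne_top_of_le_two hp
  have h1 := toReal_ge_one hp1.out ht
  have h0 : 0 < p.toReal := by linarith
  refine signedN_le_of_nat fun v hv => ?_
  obtain ⟨e, he⟩ := greedy h0 (fun x y => clarkson hp x y) v hv N
  refine ⟨e, fun m hm => ?_⟩
  have h2 := he m hm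
  have h3 : ‖∑ i ∈ Finset.range m, (if e i then v i else - v i)‖ ^ p.toReal ≤ N :=
    h2.trans (by exact_mod_cast hm)
  have h4 := Real.rpow_le_rpow (by positivity) h3 (by positivity : 0 ≤ 1 / p.toReal)
  rwa [← Real.rpow_mul (norm_nonneg _), mul_one_div_cancel h0.ne', Real.rpow_one] at h4

/-- The coordinate embedding `ℓ_p^r → ℓ_p^d`. -/
noncomputable def emb (p : ℝ≥0∞) (r d : ℕ) [Fact (1 ≤ p)] :
    PiLp p (fun _ : Fin r => ℝ) →ₗ[ℝ] PiLp p (fun _ : Fin d => ℝ) where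
  toFun x := WithLp.toLp p (fun i : Fin d => if h : i.val < r then x ⟨i.val, h⟩ else 0)
  map_add' x y := by
    ext i
    by_cases h : i.val < r <;> simp [h]
  map_smul' c x := by
    ext i
    by_cases h : i.val < r <;> simp [h]

lemma emb_apply (p : ℝ≥0∞) (r d : ℕ) [Fact (1 ≤ p)] (x : PiLp p (fun _ : Fin r => ℝ))
    (i : Fin d) : emb p r d x i = if h : i.val < r then x ⟨i.val, h⟩ else 0 := rfl

lemma norm_emb {p : ℝ≥0∞} [hp1 : Fact (1 ≤ p)] (hp : p ≤ 2) {r : ℕ} (hr : r ≤ d)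
    (x : PiLp p (fun _ : Fin r => ℝ)) : ‖emb p r d x‖ = ‖x‖ := by
  have ht := ne_top_of_le_two hp
  have h1 := toReal_ge_one hp1.out ht
  have h0 : 0 < p.toReal := by linarith
  rw [norm_lp p ht, norm_lp p ht]
  congr 1
  let b : ℕ → ℝ := fun i => |if h : i < r then x ⟨i, h⟩ else 0| ^ p.toReal
  have h2 : ∑ i : Fin d, |emb p r d x i| ^ p.toReal = ∑ i ∈ Finset.range d, b i :=
    (Finset.sum_range (n := d) b).symm
  have h3 : ∑ i : Fin r, |x i| ^ p.toReal = ∑ i ∈ Finset.range r, b i := by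
    rw [Finset.sum_range (n := r) b]
    refine Finset.sum_congr rfl fun i _ => ?_
    simp only [b, i.2, dif_pos, Fin.eta]
  rw [h2, h3]
  symm
  refine Finset.sum_subset (Finset.range_mono hr) ?_
  intro i _ hi
  rw [Finset.mem_range] at hi
  simp only [b, hi, dif_neg, not_false_eq_true, abs_zero]
  exact Real.zero_rpow h0.ne'

/-- `d^(1/p) / 9 ≤ S(ℓ_p^d, 2 d)` for `1 ≤ p ≤ 2`. -/
theorem steinitzN_lp_lower {p : ℝ≥0∞} [hp1 : Fact (1 ≤ p)] (hp : p ≤ 2) (hd : 1 ≤ d) :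
    ENNReal.ofReal (1 / 9 * (d : ℝ) ^ (1 / p.toReal)) ≤
      steinitzN (PiLp p (fun _ : Fin d => ℝ)) (d + d) := by
  have ht := ne_top_of_le_two hp
  have h1 := toReal_ge_one hp1.out ht
  have h0 : 0 < p.toReal := by linarith
  unfold steinitzN
  refine le_iSup_of_le (fun i => toP p (fam d i))
    (le_iSup_of_le (norm_toP_fam_le hp hd) (le_iSup_of_le ?_ ?_))
  · apply toE_inj p
    rw [map_sum, map_zero]
    simp only [toE_toP]
    exact sum_fam hd
  unfold bestOrder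
  refine le_iInf fun π => ?_
  obtain ⟨k, hk⟩ := exists_large hd π
  refine le_iSup_of_le k ?_
  rw [← ofReal_norm]
  apply ENNReal.ofReal_le_ofReal
  set y := prefixSum (fun i => toP p (fam d (π i))) k.val with hy
  have hy1 : toE p d y = partialSum (fun i => fam d (π i)) k.val :=
    prefix_toP p (fun i => fam d (π i)) k.val
  have hc : ∀ i, y i = (partialSum (fun i => fam d (π i)) k.val) i := by
    intro i
    rw [← toE_apply p y i, hy1]
  have h3 : (d : ℝ) / 9 ≤ ∑ i, |y i| ^ 2 := by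
    have h4 : ‖partialSum (fun i => fam d (π i)) k.val‖ ^ 2 = ∑ i, |y i| ^ 2 := by
      rw [EuclideanSpace.norm_sq_eq]
      refine Finset.sum_congr rfl fun i _ => ?_
      rw [Real.norm_eq_abs, hc]
    rw [← h4]
    have h5 := pow_le_pow_left₀ (by positivity) hk 2
    rw [div_pow, Real.sq_sqrt (Nat.cast_nonneg d)] at h5
    norm_num at h5
    linarith
  have h6 := norm_ge_of hp y (A := (d : ℝ) / 9) (by positivity)
    (h3.trans (sum_ge_sq hp (fun i => y i) (fun i => by rw [hc]; exact abs_partial_le hd π _ i) h0))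
  refine le_trans ?_ h6
  rw [Real.div_rpow (Nat.cast_nonneg d) (by norm_num)]
  have h7 : (9 : ℝ) ^ (1 / p.toReal) ≤ 9 := by
    calc (9 : ℝ) ^ (1 / p.toReal) ≤ (9 : ℝ) ^ (1 : ℝ) :=
          Real.rpow_le_rpow_of_exponent_le (by norm_num) ((div_le_one h0).2 h1)
      _ = 9 := Real.rpow_one _
  have h8 : 0 < (9 : ℝ) ^ (1 / p.toReal) := by positivity
  rw [one_div, inv_mul_eq_div]
  exact div_le_div_of_nonneg_left (by positivity) h8 h7

/-- `min(d, N)^(1/p) / 27 ≤ S(ℓ_p^d, N)` for `N ≥ 2`. -/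
theorem steinitzN_lower {p : ℝ≥0∞} [hp1 : Fact (1 ≤ p)] (hp : p ≤ 2) (hd : 1 ≤ d) {N : ℕ}
    (hN : 2 ≤ N) : ENNReal.ofReal (1 / 27 * ((min d N : ℕ) : ℝ) ^ (1 / p.toReal)) ≤
      steinitzN (PiLp p (fun _ : Fin d => ℝ)) N := by
  have ht := ne_top_of_le_two hp
  have h1 := toReal_ge_one hp1.out ht
  have h0 : 0 < p.toReal := by linarith
  obtain ⟨r, hr⟩ : ∃ r, r = min d (N / 2) := ⟨_, rfl⟩
  have hr1 : 1 ≤ r := by omega
  have hrd : r ≤ d := by omega
  have hrN : r + r ≤ N := by omega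
  have hr3 : min d N ≤ 3 * r := by omega
  refine le_trans ?_ ((steinitzN_lp_lower (d := r) hp hr1).trans
    ((steinitzN_mono_isometry (emb p r d) (norm_emb hp hrd) (r + r)).trans (steinitzN_mono hrN)))
  apply ENNReal.ofReal_le_ofReal
  have h2 : ((min d N : ℕ) : ℝ) ^ (1 / p.toReal) ≤ 3 * (r : ℝ) ^ (1 / p.toReal) := by
    have h3 : ((min d N : ℕ) : ℝ) ≤ 3 * r := by exact_mod_cast hr3
    calc ((min d N : ℕ) : ℝ) ^ (1 / p.toReal) ≤ (3 * (r : ℝ)) ^ (1 / p.toReal) :=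
          Real.rpow_le_rpow (Nat.cast_nonneg _) h3 (by positivity)
      _ = 3 ^ (1 / p.toReal) * (r : ℝ) ^ (1 / p.toReal) :=
          Real.mul_rpow (by norm_num) (Nat.cast_nonneg _)
      _ ≤ 3 * (r : ℝ) ^ (1 / p.toReal) := by
          refine mul_le_mul_of_nonneg_right ?_ (by positivity)
          calc (3 : ℝ) ^ (1 / p.toReal) ≤ (3 : ℝ) ^ (1 : ℝ) :=
                Real.rpow_le_rpow_of_exponent_le (by norm_num) ((div_le_one h0).2 h1)
            _ = 3 := Real.rpow_one _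
  linarith

/-- `d^(1/p) ≤ σ(ℓ_p^d, d)` for `1 ≤ p ≤ 2`. -/
theorem signedN_lp_lower {p : ℝ≥0∞} [hp1 : Fact (1 ≤ p)] (hp : p ≤ 2) :
    ENNReal.ofReal ((d : ℝ) ^ (1 / p.toReal)) ≤ signedN (PiLp p (fun _ : Fin d => ℝ)) d := by
  have ht := ne_top_of_le_two hp
  have h1 := toReal_ge_one hp1.out ht
  have h0 : 0 < p.toReal := by linarith
  unfold signedN
  let v : Fin d → PiLp p (fun _ : Fin d => ℝ) := fun i => PiLp.single p i (1 : ℝ)
  refine le_iSup_of_le v (le_iSup_of_le (fun i => by simp [v]) ?_)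
  refine le_iInf fun e => le_iSup_of_le (Fin.last d) ?_
  rw [← ofReal_norm]
  apply ENNReal.ofReal_le_ofReal
  apply norm_ge_of hp _ (Nat.cast_nonneg d)
  have h1 : ∀ j : Fin d, |(prefixSum (fun i => (((e i : ℤˣ) : ℤ) : ℝ) • v i)
      (Fin.last d).val) j| ^ p.toReal = 1 := by
    intro j
    have h2 : (prefixSum (fun i => (((e i : ℤˣ) : ℤ) : ℝ) • v i) (Fin.last d).val) j
        = ((e j : ℤˣ) : ℤ) := by
      unfold prefixSum
      have h3 : (Finset.univ.filter fun i : Fin d => i.val < (Fin.last d).val) = Finset.univ := by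
        apply Finset.filter_true_of_mem
        intro i _
        exact i.2
      rw [h3]
      simp only [WithLp.ofLp_sum, WithLp.ofLp_smul, Finset.sum_apply, Pi.smul_apply, v]
      rw [Finset.sum_eq_single j]
      · simp
      · intro i _ hij
        simp [Ne.symm hij]
      · intro h; exact absurd (Finset.mem_univ j) h
    rw [h2]
    rcases Int.units_eq_one_or (e j) with h | h <;> simp [h]
  rw [Finset.sum_congr rfl (fun j _ => h1 j)]
  simp

/-- `min(d, N)^(1/p) ≤ σ(ℓ_p^d, N)`. -/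
theorem signedN_lower {p : ℝ≥0∞} [hp1 : Fact (1 ≤ p)] (hp : p ≤ 2) (N : ℕ) :
    ENNReal.ofReal (((min d N : ℕ) : ℝ) ^ (1 / p.toReal)) ≤
      signedN (PiLp p (fun _ : Fin d => ℝ)) N :=
  (signedN_lp_lower (d := min d N) hp).trans
    ((signedN_mono_isometry (emb p (min d N) d) (norm_emb hp (min_le_left _ _)) _).trans
      (signedN_mono (min_le_right _ _)))

/-- `σ(ℓ_p^d, N) = N^(1/p)` for `N ≤ d`. -/
theorem signedN_eq {p : ℝ≥0∞} [hp1 : Fact (1 ≤ p)] (hp : p ≤ 2) {N : ℕ} (hN : N ≤ d) :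
    signedN (PiLp p (fun _ : Fin d => ℝ)) N = ENNReal.ofReal ((N : ℝ) ^ (1 / p.toReal)) := by
  refine le_antisymm (signedN_lp_le hp N) ?_
  have h := signedN_lower (d := d) hp N
  rwa [min_eq_right hN] at h

end Vale.Agent.P262.H865
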