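import Vale.Agent.P262.H865.Rows

/-!
# Steinitz constants of matrices (P262)
-/

open scoped ENNReal BigOperators

namespace Vale.Agent.P262.H865

open Vale.Agent.P262.H691

variable {E : Type} [NormedAddCommGroup E]

/-- Prefix sums as sums over a range. -/
lemma prefix_eq_range {N : ℕ} (v : Fin N → E) (b : ℕ → E) (hb : ∀ i : Fin N, b i.val = v i)
    {k : ℕ} (hk : k ≤ N) : prefixSum v k = ∑ i ∈ Finset.range k, b i := by
  unfold prefixSum
  symm
  refine Finset.sum_bij' (fun i hi => (⟨i, lt_of_lt_of_le (Finset.mem_range.1 hi) hk⟩ : Fin N))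
    (fun i _ => i.val) ?_ ?_ ?_ ?_ ?_
  · intro i hi
    simpa using hi
  · intro i hi
    simpa using hi
  · intro i _; rfl
  · intro i _; rfl
  · intro i hi
    exact hb ⟨i, _⟩

variable [NormedSpace ℝ E]

/-- Good signs for a sequence of length `L`. -/
lemma exists_signs {L : ℕ} (hf : signedN E L ≠ ⊤) (v : ℕ → E) (hv : ∀ i, ‖v i‖ ≤ 1) :
    ∃ e : ℕ → Bool, ∀ m ≤ L,
      ‖∑ i ∈ Finset.range m, (if e i then v i else - v i)‖ ≤ (signedN E L).toReal := by
  obtain ⟨ε, hε⟩ := exists_eq_ciInf_of_finite (f := fun ε : Fin L → ℤˣ => ⨆ k : Fin (L + 1),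
    ‖prefixSum (fun i => ((ε i : ℤ) : ℝ) • v i.val) k.val‖ₑ)
  have h1 : (⨆ k : Fin (L + 1), ‖prefixSum (fun i => ((ε i : ℤ) : ℝ) • v i.val) k.val‖ₑ)
      ≤ signedN E L := by
    rw [hε]
    unfold signedN
    exact le_iSup_of_le (fun i : Fin L => v i.val) (le_iSup_of_le (fun i => hv i.val) le_rfl)
  refine ⟨fun i => if h : i < L then decide (ε ⟨i, h⟩ = 1) else true, fun m hm => ?_⟩
  have h2 := (le_iSup (fun k : Fin (L + 1) =>
    ‖prefixSum (fun i => ((ε i : ℤ) : ℝ) • v i.val) k.val‖ₑ) ⟨m, by omega⟩).trans h1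
  rw [prefix_eq_range _ (fun i => if (if h : i < L then decide (ε ⟨i, h⟩ = 1) else true) = true
    then v i else - v i) ?_ hm] at h2
  · rw [← ofReal_norm] at h2
    exact (ENNReal.ofReal_le_iff_le_toReal hf).1 h2
  · intro i
    rw [dif_pos i.2]
    rcases Int.units_eq_one_or (ε i) with h | h
    · simp [h]
    · simp [h]

/-- **Matrices**: row permutations for which all column prefix sums are at most twice the signed
prefix constant. -/
theorem matrixSteinitz_le (m n : ℕ) : matrixSteinitz E m n ≤ 2 * signedN E (n / 2 * m) := by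
  by_cases hf : signedN E (n / 2 * m) = ⊤
  · rw [hf]; simp
  unfold matrixSteinitz
  refine iSup_le fun A => iSup_le fun hA => iSup_le fun h0 => ?_
  let G : (Fin m → Equiv.Perm (Fin n)) → ℝ := fun π =>
    (Finset.range (n + 1)).sup' ⟨0, by simp⟩
      (fun k => ‖∑ j, prefixSum (fun i => A j (π j i)) k‖)
  obtain ⟨π, -, hπ⟩ := Finset.exists_min_image (Finset.univ : Finset (Fin m → Equiv.Perm (Fin n)))
    G ⟨fun _ => 1, Finset.mem_univ _⟩
  -- the arranged matrix on natural numbers
  let b : ℕ → ℕ → E := fun j i => if h : j < m ∧ i < n then A ⟨j, h.1⟩ (π ⟨j, h.1⟩ ⟨i, h.2⟩) else 0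
  have hb : ∀ j i, ‖b j i‖ ≤ 1 := by
    intro j i
    simp only [b]
    split_ifs
    · exact hA _ _
    · simp
  have hbv : ∀ (j : Fin m) (i : Fin n), b j.val i.val = A j (π j i) := by
    intro j i
    simp only [b]
    rw [dif_pos ⟨j.2, i.2⟩]
  have hcol : ∀ (τ : Fin m → Equiv.Perm (Fin n)) (t : ℕ → ℕ → ℕ)
      (_ : ∀ (j : Fin m) (i : Fin n), t j.val i.val = (τ j i).val) (k : ℕ), k ≤ n →
      ∑ i ∈ Finset.range k, ∑ j ∈ Finset.range m, b j (t j i)
        = ∑ j, prefixSum (fun i => A j (π j (τ j i))) k := by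
    intro τ t ht k hk
    rw [Finset.sum_comm, Finset.sum_range]
    refine Finset.sum_congr rfl fun j _ => ?_
    rw [prefix_eq_range _ (fun i => b j.val (t j.val i)) ?_ hk]
    intro i
    rw [ht, hbv]
  have hid := hcol (fun _ => 1) (fun _ i => i) (fun j i => rfl)
  have hG : ∀ k ≤ n, ‖∑ i ∈ Finset.range k, ∑ j ∈ Finset.range m, b j i‖ ≤ G π := by
    intro k hk
    rw [hid k hk]
    exact Finset.le_sup' (fun k => ‖∑ j, prefixSum (fun i => A j (π j i)) k‖)
      (Finset.mem_range.2 (by omega))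
  have hz : ∑ i ∈ Finset.range n, ∑ j ∈ Finset.range m, b j i = 0 := by
    rw [hid n le_rfl, ← h0]
    refine Finset.sum_congr rfl fun j _ => ?_
    unfold prefixSum
    rw [Finset.filter_true_of_mem (fun i _ => i.2)]
    exact Equiv.sum_comp (π j) (fun i => A j i)
  obtain ⟨e, he⟩ := rows_nat (k := m) (n := n) (σ := (signedN E (n / 2 * m)).toReal)
    (fun v hv => exists_signs hf v hv) b hb hG hz
  -- the new arrangement
  have h1 : G (fun j => (tauPerm n (e j.val)).trans (π j)) ≤
      G π / 2 + (signedN E (n / 2 * m)).toReal := by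
    refine Finset.sup'_le _ _ fun k hk => ?_
    have hk' : k ≤ n := by have := Finset.mem_range.1 hk; omega
    have h2 := he k hk'
    rw [hcol (fun j => tauPerm n (e j.val)) (fun j i => tau n (e j) i) (fun j i => rfl) k hk'] at h2
    exact h2
  have h2 := hπ (fun j => (tauPerm n (e j.val)).trans (π j)) (Finset.mem_univ _)
  have h3 : G π ≤ 2 * (signedN E (n / 2 * m)).toReal := by linarith
  unfold bestRows
  refine (iInf_le _ π).trans (iSup_le fun k => ?_)
  rw [← ofReal_norm]
  have h4 : ‖∑ j, prefixSum (fun i => A j (π j i)) k.val‖ ≤ 2 * (signedN E (n / 2 * m)).toReal :=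
    (Finset.le_sup' (fun k => ‖∑ j, prefixSum (fun i => A j (π j i)) k‖)
      (Finset.mem_range.2 k.2)).trans h3
  refine (ENNReal.ofReal_le_ofReal h4).trans (le_of_eq ?_)
  rw [ENNReal.ofReal_mul (by norm_num), ENNReal.ofReal_toReal hf]
  simp

omit [NormedSpace ℝ E] in
/-- Zero-sum families are matrices with one row different from zero. -/
theorem steinitzN_le_matrix {m : ℕ} (hm : 1 ≤ m) (n : ℕ) :
    steinitzN E n ≤ matrixSteinitz E m n := by
  unfold steinitzN
  refine iSup_le fun v => iSup_le fun hv => iSup_le fun h0 => ?_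
  let j0 : Fin m := ⟨0, hm⟩
  let A : Fin m → Fin n → E := fun j i => if j = j0 then v i else 0
  have h1 : bestRows A ≤ matrixSteinitz E m n := by
    unfold matrixSteinitz
    refine le_iSup_of_le A (le_iSup_of_le ?_ (le_iSup_of_le ?_ le_rfl))
    · intro j i
      simp only [A]
      split_ifs
      · exact hv i
      · simp
    · rw [Finset.sum_eq_single j0]
      · simp only [A, if_true]
        exact h0
      · intro j _ hj
        simp [A, hj]
      · intro h; exact absurd (Finset.mem_univ _) h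
  refine le_trans ?_ h1
  unfold bestRows bestOrder
  refine le_iInf fun π => ?_
  refine (iInf_le _ (π j0)).trans (iSup_le fun k => le_iSup_of_le k (le_of_eq ?_))
  congr 1
  rw [Finset.sum_eq_single j0]
  · simp only [A, if_true]
  · intro j _ hj
    unfold prefixSum
    simp [A, hj]
  · intro h; exact absurd (Finset.mem_univ _) h

/-- Chobanyan's inequality up to the factor two, for families of `N` vectors. -/
theorem steinitzN_le_signedN (N : ℕ) : steinitzN E N ≤ 2 * signedN E (N / 2) := by
  have h := (steinitzN_le_matrix (E := E) le_rfl N).trans (matrixSteinitz_le 1 N)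
  rwa [mul_one] at h

end Vale.Agent.P262.H865
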