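import Vale.Agent.P262.H865.Lp2

/-!
# The bound `σ(d, N) ≤ 7 √(d + log N)` (P262)
-/

open scoped ENNReal BigOperators

namespace Vale.Agent.P262.H865

open Vale.Agent.P262.H691 Vale.Agent.P262.Sqrt MeasureTheory ProbabilityTheory

/-- The normalised exponential cost. -/
noncomputable def cost (d : ℕ) (x : Fin d → ℝ) : ℝ :=
  (Real.sqrt 2 ^ d)⁻¹ * Real.exp ((∑ i, (x i) ^ 2) / 4)

lemma cost_convex (d : ℕ) : ConvexOn ℝ Set.univ (cost d) := by
  have h := (Stage.QC_convex (κ := Fin d) (P := Fin d) (fun p c => if p = c then 1 else 0)).smul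
    (c := (Real.sqrt 2 ^ d)⁻¹) (by positivity)
  refine h.congr fun x _ => ?_
  simp only [Stage.QC, cost, smul_eq_mul, ite_mul, one_mul, zero_mul, Finset.sum_ite_eq,
    Finset.mem_univ, if_true]

lemma cost_int (d : ℕ) : ∫⁻ x, ENNReal.ofReal (cost d x) ∂(gam (Fin d)) ≤ 1 := by
  have h := gauss_prod (κ := Fin d) Finset.univ
  have h1 : ∀ x : Fin d → ℝ, ENNReal.ofReal (cost d x) = ENNReal.ofReal ((Real.sqrt 2 ^ d)⁻¹) *
      ENNReal.ofReal (Real.exp ((∑ i, (x i) ^ 2) / 4)) := by
    intro x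
    rw [cost, ENNReal.ofReal_mul (by positivity)]
  simp_rw [h1]
  rw [lintegral_const_mul _ (by fun_prop), h, ← ENNReal.ofReal_mul (by positivity),
    Finset.card_univ, Fintype.card_fin, inv_mul_cancel₀ (by positivity)]
  simp

/-- **Prefix balancing of `N` vectors.** -/
theorem signedN_euclid_le (d N : ℕ) (hN : 1 ≤ N) :
    signedN (EuclideanSpace ℝ (Fin d)) N ≤ ENNReal.ofReal (7 * Real.sqrt (d + Real.log N)) := by
  have hN0 : (0 : ℝ) < N := by exact_mod_cast hN
  have hlog : 0 ≤ Real.log (N : ℝ) := Real.log_nonneg (by exact_mod_cast hN)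
  unfold signedN
  refine iSup_le fun v => iSup_le fun hv => ?_
  obtain ⟨s, hs, hj⟩ := toolProp (Fin d) (Fin N) (cost d) (cost_convex d)
    (fun x => by unfold cost; positivity) (cost_int d) (fun i c => 3 / 10 * v i c) (fun _ => 0)
    (fun i => i.val) N (fun i => by
      have h1 : ‖v i‖ ^ 2 = ∑ c, (v i c) ^ 2 := by
        rw [EuclideanSpace.norm_sq_eq]
        simp only [Real.norm_eq_abs, sq_abs]
      simp only [mul_pow]
      rw [← Finset.mul_sum, ← h1]
      have h2 : ‖v i‖ ^ 2 ≤ 1 := pow_le_one₀ (norm_nonneg _) (hv i)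
      nlinarith) (fun _ => by norm_num)
  refine (iInf_le _ (fun i : Fin N => if s i = 1 then (1 : ℤˣ) else -1)).trans
    (iSup_le fun k => ?_)
  rw [← ofReal_norm]
  apply ENNReal.ofReal_le_ofReal
  have hk : k.val ≤ N := Nat.lt_succ_iff.1 k.2
  have hsgn : ∀ i, (((if s i = 1 then (1 : ℤˣ) else -1 : ℤˣ) : ℤ) : ℝ) = s i := by
    intro i
    rcases hs i with h | h
    · simp [h]
    · rw [h]; norm_num
  rcases Nat.eq_zero_or_pos k.val with hk0 | hk0
  · rw [hk0]
    unfold prefixSum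
    simp
  · obtain ⟨j, hjk⟩ : ∃ j, k.val = j + 1 := ⟨k.val - 1, by omega⟩
    have h1 := hj j (by omega)
    set x := prefixSum (fun i => (((if s i = 1 then (1 : ℤˣ) else -1 : ℤˣ) : ℤ) : ℝ) • v i) k.val
      with hx
    have h2 : ∀ c, ∑ i : Fin N with i.val ≤ j, (s i - 0) * (3 / 10 * v i c) = 3 / 10 * x c := by
      intro c
      rw [hx]
      unfold prefixSum
      rw [WithLp.ofLp_sum, Finset.sum_apply, Finset.mul_sum, hjk]
      have h3 : (Finset.univ.filter fun i : Fin N => i.val ≤ j)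
          = Finset.univ.filter fun i : Fin N => i.val < j + 1 := by
        ext i
        simp
      rw [h3]
      refine Finset.sum_congr rfl fun i _ => ?_
      rw [hsgn, WithLp.ofLp_smul, Pi.smul_apply, smul_eq_mul]
      ring
    have h4 : cost d (fun c => ∑ i : Fin N with i.val ≤ j, (s i - 0) * (3 / 10 * v i c))
        = (Real.sqrt 2 ^ d)⁻¹ * Real.exp (9 / 400 * ‖x‖ ^ 2) := by
      unfold cost
      simp only [h2]
      congr 2
      rw [EuclideanSpace.norm_sq_eq]
      simp only [Real.norm_eq_abs, sq_abs, mul_pow]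
      rw [← Finset.mul_sum]
      ring
    rw [h4, inv_mul_le_iff₀ (by positivity)] at h1
    have h5 := Real.log_le_log (Real.exp_pos _) h1
    rw [Real.log_exp, Real.log_mul (by positivity) hN0.ne', Real.log_pow, Real.log_sqrt
      (by norm_num)] at h5
    have h6 : Real.log 2 < 1 := by
      have := Real.log_two_lt_d9; linarith
    have h7 : ‖x‖ ^ 2 ≤ 49 * (d + Real.log N) := by
      have h8 : (d : ℝ) * (Real.log 2 / 2) ≤ d / 2 := by
        have : (0 : ℝ) ≤ d := Nat.cast_nonneg d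
        nlinarith
      have : (0 : ℝ) ≤ d := Nat.cast_nonneg d
      nlinarith
    have h9 := Real.sqrt_le_sqrt h7
    rw [Real.sqrt_sq (norm_nonneg _), Real.sqrt_mul (by norm_num)] at h9
    have h10 : Real.sqrt 49 = 7 := by
      rw [show (49 : ℝ) = 7 ^ 2 by norm_num]
      exact Real.sqrt_sq (by norm_num)
    rwa [h10] at h9

end Vale.Agent.P262.H865
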