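import Vale.Agent.P262.H865.Defs
import Mathlib.Analysis.Normed.Module.Basic

/-!
# Rearranging the rows of a matrix of vectors (P262)

The exchange argument of Chobanyan for matrices of vectors: an optimal rearrangement of the rows,
followed by a choice of signs for the halved differences of the columns `2 i` and `2 i + 1`, gives
a rearrangement whose column prefix sums are at most half of the optimum plus the signed prefix
constant.
-/

open scoped ENNReal BigOperators

namespace Vale.Agent.P262.H865

open Vale.Agent.P262.H691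

/-- The exchange: `e i` tells which one of the columns `2 i`, `2 i + 1` comes first; the other ones
come at the end, in reverse order. -/
def tau (n : ℕ) (e : ℕ → Bool) (i : ℕ) : ℕ :=
  if i < n / 2 then (if e i then 2 * i else 2 * i + 1)
  else if n - n / 2 ≤ i then (if e (n - 1 - i) then 2 * (n - 1 - i) + 1 else 2 * (n - 1 - i))
  else n - 1

lemma tau_lt {n : ℕ} (e : ℕ → Bool) {i : ℕ} (hi : i < n) : tau n e i < n := by
  unfold tau
  split_ifs <;> omega

lemma tau_inj {n : ℕ} (e : ℕ → Bool) {i i' : ℕ} (hi : i < n) (hi' : i' < n)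
    (h : tau n e i = tau n e i') : i = i' := by
  unfold tau at h
  by_cases h1 : i < n / 2
  · by_cases h2 : i' < n / 2
    · simp only [h1, h2, if_true] at h
      split_ifs at h <;> omega
    · by_cases h3 : n - n / 2 ≤ i'
      · simp only [h1, h2, h3, if_true, if_false] at h
        exfalso
        have h4 : i = n - 1 - i' := by split_ifs at h <;> omega
        rw [← h4] at h
        split_ifs at h <;> omega
      · simp only [h1, h2, h3, if_true, if_false] at h
        split_ifs at h <;> omega
  · by_cases h2 : i' < n / 2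
    · by_cases h3 : n - n / 2 ≤ i
      · simp only [h1, h2, h3, if_true, if_false] at h
        exfalso
        have h4 : i' = n - 1 - i := by split_ifs at h <;> omega
        rw [← h4] at h
        split_ifs at h <;> omega
      · simp only [h1, h2, h3, if_true, if_false] at h
        split_ifs at h <;> omega
    · by_cases h3 : n - n / 2 ≤ i
      · by_cases h4 : n - n / 2 ≤ i'
        · simp only [h1, h2, h3, h4, if_true, if_false] at h
          split_ifs at h <;> omega
        · simp only [h1, h2, h3, h4, if_true, if_false] at h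
          split_ifs at h <;> omega
      · by_cases h4 : n - n / 2 ≤ i'
        · simp only [h1, h2, h3, h4, if_true, if_false] at h
          split_ifs at h <;> omega
        · omega

/-- The exchange as a permutation. -/
noncomputable def tauPerm (n : ℕ) (e : ℕ → Bool) : Equiv.Perm (Fin n) :=
  Equiv.ofBijective (fun i => (⟨tau n e i.1, tau_lt e i.2⟩ : Fin n))
    (Finite.injective_iff_bijective.1 fun a b h => Fin.ext
      (tau_inj e a.2 b.2 (by simpa using congrArg Fin.val h)))

lemma tauPerm_val (n : ℕ) (e : ℕ → Bool) (i : Fin n) : (tauPerm n e i).val = tau n e i.1 := rfl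

variable {E : Type} [NormedAddCommGroup E] [NormedSpace ℝ E]

omit [NormedSpace ℝ E] in
lemma sum_range_mul (f : ℕ → E) (p k : ℕ) :
    ∑ t ∈ Finset.range (p * k), f t = ∑ x ∈ Finset.range p, ∑ y ∈ Finset.range k, f (x * k + y) := by
  induction p with
  | zero => simp
  | succ p ih => rw [Nat.succ_mul, Finset.sum_range_add, ih, Finset.sum_range_succ]

/-- One step of the exchange. -/
theorem rows_nat {k n : ℕ} {σ s : ℝ}
    (hσ : ∀ v : ℕ → E, (∀ i, ‖v i‖ ≤ 1) → ∃ e : ℕ → Bool, ∀ m ≤ n / 2 * k,
      ‖∑ i ∈ Finset.range m, (if e i then v i else - v i)‖ ≤ σ)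
    (b : ℕ → ℕ → E) (hb : ∀ j i, ‖b j i‖ ≤ 1)
    (hs : ∀ m ≤ n, ‖∑ i ∈ Finset.range m, ∑ j ∈ Finset.range k, b j i‖ ≤ s)
    (h0 : ∑ i ∈ Finset.range n, ∑ j ∈ Finset.range k, b j i = 0) :
    ∃ e : ℕ → ℕ → Bool, ∀ m ≤ n,
      ‖∑ i ∈ Finset.range m, ∑ j ∈ Finset.range k, b j (tau n (e j) i)‖ ≤ s / 2 + σ := by
  rcases Nat.eq_zero_or_pos k with hk | hk
  · subst hk
    refine ⟨fun _ _ => true, fun m hm => ?_⟩
    have h1 := hs 0 (Nat.zero_le _)
    obtain ⟨e, he⟩ := hσ (fun _ => 0) (fun _ => by simp)
    have h2 := he 0 (Nat.zero_le _)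
    simp only [Finset.range_zero, Finset.sum_empty, norm_zero, Finset.sum_const_zero] at h1 h2 ⊢
    linarith
  obtain ⟨e, he⟩ := hσ (fun t => (1 / 2 : ℝ) • (b (t % k) (2 * (t / k)) -
      b (t % k) (2 * (t / k) + 1))) (fun t => by
    rw [norm_smul, Real.norm_eq_abs, abs_of_pos (by norm_num : (0 : ℝ) < 1 / 2)]
    have h1 := norm_sub_le (b (t % k) (2 * (t / k))) (b (t % k) (2 * (t / k) + 1))
    have h2 := hb (t % k) (2 * (t / k))
    have h3 := hb (t % k) (2 * (t / k) + 1)
    linarith)
  -- the signed sum of the first `p` pairs of columns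
  set D : ℕ → E := fun p => ∑ x ∈ Finset.range p, ∑ y ∈ Finset.range k,
    (if e (x * k + y) then (1 / 2 : ℝ) • (b y (2 * x) - b y (2 * x + 1))
      else -((1 / 2 : ℝ) • (b y (2 * x) - b y (2 * x + 1)))) with hD
  have hDn : ∀ p ≤ n / 2, ‖D p‖ ≤ σ := by
    intro p hp
    have h1 := he (p * k) (Nat.mul_le_mul_right k hp)
    rw [sum_range_mul] at h1
    refine le_trans (le_of_eq ?_) h1
    congr 1
    rw [hD]
    refine Finset.sum_congr rfl fun x _ => Finset.sum_congr rfl fun y hy => ?_
    have hy' : y < k := Finset.mem_range.1 hy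
    have e1 : (x * k + y) % k = y := by
      rw [mul_comm, Nat.mul_add_mod, Nat.mod_eq_of_lt hy']
    have e2 : (x * k + y) / k = x := by
      rw [mul_comm, Nat.mul_add_div hk, Nat.div_eq_of_lt hy', add_zero]
    simp only [e1, e2]
  -- the plain sum of the first `2 p` columns
  have hP : ∀ p, ∑ i ∈ Finset.range (2 * p), ∑ j ∈ Finset.range k, b j i
      = ∑ x ∈ Finset.range p, ∑ y ∈ Finset.range k, (b y (2 * x) + b y (2 * x + 1)) := by
    intro p
    induction p with
    | zero => simp
    | succ p ih =>
      rw [show 2 * (p + 1) = 2 * p + 1 + 1 by ring, Finset.sum_range_succ, Finset.sum_range_succ, ih,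
        Finset.sum_range_succ _ p, add_assoc, ← Finset.sum_add_distrib]
  refine ⟨fun j x => e (x * k + j), fun m hm => ?_⟩
  have key1 : ∀ p ≤ n / 2, ∑ i ∈ Finset.range p, ∑ j ∈ Finset.range k,
      b j (tau n (fun x => e (x * k + j)) i) =
      (1 / 2 : ℝ) • (∑ i ∈ Finset.range (2 * p), ∑ j ∈ Finset.range k, b j i) + D p := by
    intro p hp
    rw [hP, hD]
    simp only [Finset.smul_sum]
    rw [← Finset.sum_add_distrib]
    refine Finset.sum_congr rfl fun x hx => ?_
    rw [← Finset.sum_add_distrib]
    refine Finset.sum_congr rfl fun y _ => ?_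
    have hx' : x < n / 2 := lt_of_lt_of_le (Finset.mem_range.1 hx) hp
    unfold tau
    rw [if_pos hx']
    by_cases h : e (x * k + y) = true
    · rw [if_pos h, if_pos h, ← smul_add]
      rw [show b y (2 * x) + b y (2 * x + 1) + (b y (2 * x) - b y (2 * x + 1))
        = (2 : ℝ) • b y (2 * x) by rw [two_smul]; abel]
      rw [smul_smul]; norm_num
    · rw [if_neg h, if_neg h, ← smul_neg, ← smul_add]
      rw [show b y (2 * x) + b y (2 * x + 1) + -(b y (2 * x) - b y (2 * x + 1))
        = (2 : ℝ) • b y (2 * x + 1) by rw [two_smul]; abel]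
      rw [smul_smul]; norm_num
  have key2 : ∀ p ≤ n / 2, ∑ i ∈ Finset.range p, ∑ j ∈ Finset.range k,
      b j (tau n (fun x => e (x * k + j)) (n - 1 - i)) =
      (1 / 2 : ℝ) • (∑ i ∈ Finset.range (2 * p), ∑ j ∈ Finset.range k, b j i) - D p := by
    intro p hp
    rw [hP, hD]
    simp only [Finset.smul_sum]
    rw [← Finset.sum_sub_distrib]
    refine Finset.sum_congr rfl fun x hx => ?_
    rw [← Finset.sum_sub_distrib]
    refine Finset.sum_congr rfl fun y _ => ?_
    have hx' : x < n / 2 := lt_of_lt_of_le (Finset.mem_range.1 hx) hp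
    unfold tau
    rw [if_neg (by omega), if_pos (by omega), show n - 1 - (n - 1 - x) = x by omega]
    by_cases h : e (x * k + y) = true
    · rw [if_pos h, if_pos h, ← smul_sub]
      rw [show b y (2 * x) + b y (2 * x + 1) - (b y (2 * x) - b y (2 * x + 1))
        = (2 : ℝ) • b y (2 * x + 1) by rw [two_smul]; abel]
      rw [smul_smul]; norm_num
    · rw [if_neg h, if_neg h, sub_neg_eq_add, ← smul_add]
      rw [show b y (2 * x) + b y (2 * x + 1) + (b y (2 * x) - b y (2 * x + 1))
        = (2 : ℝ) • b y (2 * x) by rw [two_smul]; abel]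
      rw [smul_smul]; norm_num
  have hhalf : ∀ p ≤ n / 2, ‖(1 / 2 : ℝ) • (∑ i ∈ Finset.range (2 * p), ∑ j ∈ Finset.range k,
      b j i)‖ ≤ s / 2 := by
    intro p hp
    rw [norm_smul, Real.norm_eq_abs, abs_of_pos (by norm_num : (0 : ℝ) < 1 / 2)]
    have := hs (2 * p) (by omega)
    linarith
  by_cases hm1 : m ≤ n / 2
  · rw [key1 m hm1]
    exact (norm_add_le _ _).trans (add_le_add (hhalf m hm1) (hDn m hm1))
  · -- the total sum is zero
    have htot : ∑ i ∈ Finset.range n, ∑ j ∈ Finset.range k,
        b j (tau n (fun x => e (x * k + j)) i) = 0 := by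
      rw [Finset.sum_comm]
      rw [Finset.sum_comm] at h0
      rw [← h0]
      refine Finset.sum_congr rfl fun j _ => ?_
      have h1 : ∀ f : ℕ → E, ∑ i ∈ Finset.range n, f i = ∑ i : Fin n, f i.val := fun f =>
        Finset.sum_range f
      rw [h1, h1]
      exact Equiv.sum_comp (tauPerm n (fun x => e (x * k + j))) (fun i : Fin n => b j i.val)
    set f : ℕ → E := fun i => ∑ j ∈ Finset.range k, b j (tau n (fun x => e (x * k + j)) i) with hf
    have hsplit : ∑ i ∈ Finset.range m, f i + ∑ i ∈ Finset.range (n - m), f (n - 1 - i) = 0 := by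
      rw [← htot]
      have h2 : ∑ i ∈ Finset.range n, f i = ∑ i ∈ Finset.range m, f i +
          ∑ i ∈ Finset.range (n - m), f (m + i) := by
        conv_lhs => rw [show n = m + (n - m) by omega]
        rw [Finset.sum_range_add]
      rw [h2]
      congr 1
      rw [← Finset.sum_range_reflect (fun i => f (m + i)) (n - m)]
      refine Finset.sum_congr rfl fun i hi => ?_
      have := Finset.mem_range.1 hi
      congr 1
      omega
    have h3 : ∑ i ∈ Finset.range m, f i = -(∑ i ∈ Finset.range (n - m), f (n - 1 - i)) :=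
      eq_neg_of_add_eq_zero_left hsplit
    rw [h3, norm_neg]
    have h4 := key2 (n - m) (by omega)
    rw [hf]
    rw [h4]
    exact (norm_sub_le _ _).trans (add_le_add (hhalf _ (by omega)) (hDn _ (by omega)))

end Vale.Agent.P262.H865
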